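import Vale.Agent.P336.R2.H746.Quarter

/-!
# P336: numerics for grouped gates
-/

namespace Vale.Agent.P336.H746

lemma quarter_pow {p : ℕ} (hp : 2 ≤ p) : (1 / 4 : ℝ) ^ p ≤ (1 - 1 / p) ^ p ^ 2 := by
  rcases lt_or_ge p 4 with h | h
  · interval_cases p <;> norm_num
  · rw [sq, pow_mul]
    exact pow_le_pow_left₀ (by norm_num) (quarter_le h) p

/-- Pure powers. -/
lemma pow_facts {p R : ℕ} (hp : 2 ≤ p) (hR : 1 ≤ R) :
    128 * p * 4 ^ p * (2 ^ p * (R ^ p + 3) + p) ≤ (4096 * R) ^ p ∧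
      1024 * p ^ 4 * 16 ^ p ≤ 4096 ^ p ∧ R ^ p + 3 ≤ (2 * R) ^ p ∧ 128 * p ≤ 4096 ^ p := by
  have h2p : 2 * p ≤ 2 ^ p := by
    obtain ⟨e, rfl⟩ : ∃ e, p = e + 2 := ⟨p - 2, by omega⟩
    have : e + 1 ≤ 2 ^ e := Nat.lt_two_pow_self
    rw [pow_add]
    omega
  have h4 : 4 ≤ 2 ^ p := by
    calc 4 = 2 ^ 2 := by norm_num
      _ ≤ 2 ^ p := Nat.pow_le_pow_right (by norm_num) hp
  have hRp : 1 ≤ R ^ p := Nat.one_le_pow _ _ hR
  set A := 2 ^ p with hA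
  have e4 : 4 ^ p = A ^ 2 := by rw [hA, ← pow_mul, mul_comm, pow_mul]; norm_num
  have e16 : 16 ^ p = A ^ 4 := by rw [hA, ← pow_mul, mul_comm, pow_mul]; norm_num
  have e4096 : 4096 ^ p = A ^ 12 := by rw [hA, ← pow_mul, mul_comm, pow_mul]; norm_num
  have e2R : (2 * R) ^ p = A * R ^ p := mul_pow _ _ _
  have eKR : (4096 * R) ^ p = A ^ 12 * R ^ p := by rw [mul_pow, e4096]
  rw [e4, e16, e4096, e2R, eKR]
  generalize R ^ p = B at *
  clear_value A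
  refine ⟨?_, ?_, ?_, ?_⟩
  · have h1 : A * (B + 3) + p ≤ 5 * (A * B) := by nlinarith
    have h3 : 128 * p * A ^ 2 * (A * (B + 3) + p) ≤ (64 * A) * A ^ 2 * (5 * (A * B)) :=
      Nat.mul_le_mul (Nat.mul_le_mul_right _ (by omega)) h1
    refine h3.trans ?_
    have h5 : (4 : ℕ) ^ 8 ≤ A ^ 8 := Nat.pow_le_pow_left h4 8
    calc 64 * A * A ^ 2 * (5 * (A * B)) = 320 * (A ^ 4 * B) := by ring
      _ ≤ A ^ 8 * (A ^ 4 * B) := by
          refine Nat.mul_le_mul_right _ ?_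
          norm_num at h5
          omega
      _ = A ^ 12 * B := by ring
  · have h6 : (2 * p) ^ 4 ≤ A ^ 4 := Nat.pow_le_pow_left h2p 4
    have h7 : (4 : ℕ) ^ 4 ≤ A ^ 4 := Nat.pow_le_pow_left h4 4
    have h8 : 1024 * p ^ 4 ≤ A ^ 4 * A ^ 4 := by
      calc 1024 * p ^ 4 = 64 * (2 * p) ^ 4 := by ring
        _ ≤ A ^ 4 * A ^ 4 := Nat.mul_le_mul (by norm_num at h7; omega) h6
    calc 1024 * p ^ 4 * A ^ 4 ≤ A ^ 4 * A ^ 4 * A ^ 4 := Nat.mul_le_mul_right _ h8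
      _ = A ^ 12 := by ring
  · nlinarith
  · have h9 : (4 : ℕ) ^ 11 ≤ A ^ 11 := Nat.pow_le_pow_left h4 11
    calc 128 * p ≤ 64 * A := by omega
      _ ≤ A ^ 11 * A := Nat.mul_le_mul_right _ (by norm_num at h9; omega)
      _ = A ^ 12 := by ring

theorem numerics {p R P G s k N : ℕ} (hp : 2 ≤ p) (hR : 1 ≤ R) (hP : 1 ≤ P)
    (hG : 4096 * p * R ≤ G) (hN : P * G * s ≤ 2 * N) (hs : (4096 * R) ^ p ≤ s)
    (hk : 4096 ^ p * R * k ≤ s) :
    p ≤ N / 4 ∧ 1 ≤ N / 4 / p ∧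
      P * (2 * R) * s + P * G * (s / (64 * p)) < N / 4 / p ∧ 1 ≤ s / (64 * p) ∧
      2 * ((2 ^ p * (R ^ p + 3) + p : ℕ) : ℝ) ≤
        ((s / (64 * p) : ℕ) : ℝ) * (1 - 1 / p) ^ p ^ 2 ∧
      4 * ((p * (2 * R) : ℕ) : ℝ) * ((p ^ 2 : ℕ) : ℝ) * k <
        ((s / (64 * p) : ℕ) : ℝ) * ((1 - 1 / p) ^ p ^ 2) ^ 2 ∧
      R ^ p + 3 ≤ (2 * R) ^ p ∧ 2 ^ p * (R ^ p + 3) + p ≤ N / 4 / p := by
  obtain ⟨f1, f2, f3, f4⟩ := pow_facts hp hR
  have hK1 : 1 ≤ 4096 ^ p := Nat.one_le_pow _ _ (by norm_num)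
  have hRp : 1 ≤ R ^ p := Nat.one_le_pow _ _ hR
  have hs1 : 4096 ^ p ≤ s := by
    refine le_trans ?_ hs
    rw [mul_pow]
    exact Nat.le_mul_of_pos_right _ hRp
  have hpR : p ≤ p * R := Nat.le_mul_of_pos_right _ hR
  have hPG : 4096 * p ≤ P * G * s := by
    calc 4096 * p ≤ 4096 * p * R := Nat.le_mul_of_pos_right _ hR
      _ ≤ G := hG
      _ ≤ P * G := Nat.le_mul_of_pos_left _ hP
      _ ≤ P * G * s := Nat.le_mul_of_pos_right _ (by omega)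
  have hNp : 2048 * p ≤ N := by omega
  have hm : N / 4 / p = N / (4 * p) := Nat.div_div_eq_div_mul _ _ _
  have hp0 : 0 < p := by omega
  have hm1 : 1 ≤ N / 4 / p := by
    rw [hm]
    exact (Nat.le_div_iff_mul_le (by omega)).2 (by omega)
  have hmN : N < 4 * p * (N / 4 / p + 1) := by
    rw [hm]
    exact Nat.lt_mul_div_succ _ (by omega)
  have hL1 : s / (64 * p) * (64 * p) ≤ s := Nat.div_mul_le_self _ _
  have hLge : ∀ X : ℕ, X * (64 * p) ≤ s → X ≤ s / (64 * p) := fun X hX =>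
    (Nat.le_div_iff_mul_le (by omega)).2 hX
  have hLpos : 1 ≤ s / (64 * p) := hLge 1 (by omega)
  have hcells : P * (2 * R) * s + P * G * (s / (64 * p)) < N / 4 / p := by
    have a1 : P * (2 * R) * s * (1024 * p) ≤ N := by
      have : P * (4096 * p * R) * s ≤ P * G * s := by gcongr
      have e : P * (4096 * p * R) * s = 2 * (P * (2 * R) * s * (1024 * p)) := by ring
      omega
    have a2 : P * G * (s / (64 * p)) * (32 * p) ≤ N := by
      have : P * G * (s / (64 * p) * (64 * p)) ≤ P * G * s := by gcongr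
      have e : P * G * (s / (64 * p) * (64 * p)) = 2 * (P * G * (s / (64 * p)) * (32 * p)) := by
        ring
      omega
    generalize P * (2 * R) * s = X1 at a1 ⊢
    generalize P * G * (s / (64 * p)) = X2 at a2 ⊢
    generalize N / 4 / p = m at hmN hm1 ⊢
    by_contra hcon
    push Not at hcon
    have b1 : p * (m + 1) ≤ p * (2 * m) := Nat.mul_le_mul_left _ (by omega)
    have b2 : p * m ≤ p * (X1 + X2) := Nat.mul_le_mul_left _ hcon
    have b3 : p * (X1 + X2) = X1 * p + X2 * p := by ring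
    have b4 : X1 * (1024 * p) = 1024 * (X1 * p) := by ring
    have b5 : X2 * (32 * p) = 32 * (X2 * p) := by ring
    have b6 : p * (2 * m) = 2 * (p * m) := by ring
    have b7 : 4 * p * (m + 1) = 4 * (p * (m + 1)) := by ring
    have b8 : 1 ≤ p * m := Nat.mul_pos hp0 hm1
    omega
  have hLm : s / (64 * p) ≤ N / 4 / p := by
    refine le_trans ?_ hcells.le
    refine le_trans ?_ (Nat.le_add_left _ _)
    refine Nat.le_mul_of_pos_left _ (Nat.mul_pos hP ?_)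
    have : 0 < 4096 * p * R := by positivity
    omega
  have hT : 2 * (2 ^ p * (R ^ p + 3) + p) * 4 ^ p ≤ s / (64 * p) := by
    refine hLge _ ?_
    calc 2 * (2 ^ p * (R ^ p + 3) + p) * 4 ^ p * (64 * p)
        = 128 * p * 4 ^ p * (2 ^ p * (R ^ p + 3) + p) := by ring
      _ ≤ (4096 * R) ^ p := f1
      _ ≤ s := hs
  have hV : 4 * (p * (2 * R)) * p ^ 2 * k * 16 ^ p + 1 ≤ s / (64 * p) := by
    refine hLge _ ?_
    have c1 : 2 * (4 * (p * (2 * R)) * p ^ 2 * k * 16 ^ p * (64 * p)) ≤ s := by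
      calc 2 * (4 * (p * (2 * R)) * p ^ 2 * k * 16 ^ p * (64 * p))
          = (1024 * p ^ 4 * 16 ^ p) * (R * k) := by ring
        _ ≤ 4096 ^ p * (R * k) := Nat.mul_le_mul_right _ f2
        _ = 4096 ^ p * R * k := by ring
        _ ≤ s := hk
    have c2 : (4 * (p * (2 * R)) * p ^ 2 * k * 16 ^ p + 1) * (64 * p) =
        4 * (p * (2 * R)) * p ^ 2 * k * 16 ^ p * (64 * p) + 64 * p := by ring
    rw [c2]
    omega
  have hq := quarter_pow hp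
  set z : ℝ := (1 - 1 / (p : ℝ)) ^ p ^ 2 with hz
  have hz0 : 0 ≤ z := le_trans (by positivity) hq
  have hq4 : (4 : ℝ) ^ p * (1 / 4) ^ p = 1 := by rw [← mul_pow]; norm_num
  have hz4 : 1 ≤ 4 ^ p * z := by
    calc (1 : ℝ) = 4 ^ p * (1 / 4) ^ p := hq4.symm
      _ ≤ 4 ^ p * z := mul_le_mul_of_nonneg_left hq (by positivity)
  have hz16 : 1 ≤ 16 ^ p * z ^ 2 := by
    have e16 : (16 : ℝ) ^ p = (4 ^ p) ^ 2 := by
      rw [← pow_mul, mul_comm p 2, pow_mul]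
      norm_num
    rw [e16, ← mul_pow]
    exact one_le_pow₀ hz4
  refine ⟨by omega, hm1, hcells, hLpos, ?_, ?_, f3, ?_⟩
  · have h1 : ((2 * (2 ^ p * (R ^ p + 3) + p) * 4 ^ p : ℕ) : ℝ) ≤ ((s / (64 * p) : ℕ) : ℝ) := by
      exact_mod_cast hT
    have e : ((2 * (2 ^ p * (R ^ p + 3) + p) * 4 ^ p : ℕ) : ℝ) =
        2 * ((2 ^ p * (R ^ p + 3) + p : ℕ) : ℝ) * 4 ^ p := by push_cast; ring
    rw [e] at h1
    have hX : 0 ≤ ((2 ^ p * (R ^ p + 3) + p : ℕ) : ℝ) := Nat.cast_nonneg _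
    generalize ((2 ^ p * (R ^ p + 3) + p : ℕ) : ℝ) = X at h1 hX ⊢
    generalize ((s / (64 * p) : ℕ) : ℝ) = Y at h1 ⊢
    calc 2 * X = 2 * X * 1 := (mul_one _).symm
      _ ≤ 2 * X * (4 ^ p * z) := by gcongr
      _ = 2 * X * 4 ^ p * z := by ring
      _ ≤ Y * z := by gcongr
  · have h1 : ((4 * (p * (2 * R)) * p ^ 2 * k * 16 ^ p + 1 : ℕ) : ℝ) ≤
        ((s / (64 * p) : ℕ) : ℝ) := by exact_mod_cast hV
    have e : ((4 * (p * (2 * R)) * p ^ 2 * k * 16 ^ p + 1 : ℕ) : ℝ) =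
        4 * ((p * (2 * R) : ℕ) : ℝ) * ((p ^ 2 : ℕ) : ℝ) * k * 16 ^ p + 1 := by push_cast; ring
    rw [e] at h1
    have hX : 0 ≤ 4 * ((p * (2 * R) : ℕ) : ℝ) * ((p ^ 2 : ℕ) : ℝ) * k := by positivity
    generalize 4 * ((p * (2 * R) : ℕ) : ℝ) * ((p ^ 2 : ℕ) : ℝ) * k = X at h1 hX ⊢
    generalize ((s / (64 * p) : ℕ) : ℝ) = Y at h1 ⊢
    have hz2 : 0 < z ^ 2 := by
      by_contra hcon
      have : z ^ 2 = 0 := le_antisymm (not_lt.1 hcon) (sq_nonneg z)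
      rw [this] at hz16
      norm_num at hz16
    calc X = X * 1 := (mul_one _).symm
      _ ≤ X * (16 ^ p * z ^ 2) := by gcongr
      _ = X * 16 ^ p * z ^ 2 := by ring
      _ < (X * 16 ^ p + 1) * z ^ 2 := by
          rw [add_mul, one_mul]
          linarith
      _ ≤ Y * z ^ 2 := by gcongr
  · refine le_trans ?_ hLm
    refine le_trans ?_ hT
    have : 1 ≤ 4 ^ p := Nat.one_le_pow _ _ (by norm_num)
    calc 2 ^ p * (R ^ p + 3) + p ≤ 2 * (2 ^ p * (R ^ p + 3) + p) := by omega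
      _ ≤ 2 * (2 ^ p * (R ^ p + 3) + p) * 4 ^ p := Nat.le_mul_of_pos_right _ this

end Vale.Agent.P336.H746
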