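import Mathlib

/-!
# P336: many large blocks in one group
-/

namespace Vale.Agent.P336.H746

open Finset

theorem exists_cells {m P G s g L : ℕ} (φ : Fin m → Fin P × Fin G)
    (hs : ∀ q, (univ.filter fun v => φ v = q).card ≤ s) (h : P * g * s + P * G * L < m) :
    ∃ (u : Fin P) (Q : Fin g → Finset (Fin m)) (β : Fin g → Fin G), (∀ b, L ≤ (Q b).card) ∧
      Function.Injective β ∧ ∀ b, ∀ v ∈ Q b, φ v = (u, β b) := by
  classical
  let fib : Fin P → Fin G → Finset (Fin m) := fun u b => univ.filter fun v => φ v = (u, b)
  let good : Fin P → Finset (Fin G) := fun u => univ.filter fun b => L ≤ (fib u b).card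
  by_cases hex : ∃ u, g ≤ (good u).card
  · obtain ⟨u, hu⟩ := hex
    refine ⟨u, fun b => fib u ((good u).orderEmbOfCardLe hu b),
      fun b => (good u).orderEmbOfCardLe hu b, fun b => ?_, ?_, fun b v hv => ?_⟩
    · exact (mem_filter.1 ((good u).orderEmbOfCardLe_mem hu b)).2
    · exact ((good u).orderEmbOfCardLe hu).injective
    · exact (mem_filter.1 hv).2
  · exfalso
    push Not at hex
    have h1 : m = ∑ u, ∑ b, (fib u b).card := by
      have h2 := Finset.card_eq_sum_card_fiberwise (s := (univ : Finset (Fin m)))
        (t := (univ : Finset (Fin P × Fin G))) (f := φ) (fun _ _ => mem_coe.2 (mem_univ _))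
      rw [card_univ, Fintype.card_fin, Fintype.sum_prod_type] at h2
      exact h2
    have h3 : ∀ u, ∑ b, (fib u b).card ≤ g * s + G * L := by
      intro u
      have h4 : ∀ b, (fib u b).card ≤ (if b ∈ good u then s else 0) + L := by
        intro b
        split_ifs with hb
        · exact (hs _).trans (Nat.le_add_right _ _)
        · have : ¬ L ≤ (fib u b).card := fun hL => hb (mem_filter.2 ⟨mem_univ _, hL⟩)
          omega
      calc ∑ b, (fib u b).card ≤ ∑ b, ((if b ∈ good u then s else 0) + L) :=
            Finset.sum_le_sum fun b _ => h4 b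
        _ = (good u).card * s + G * L := by
            rw [Finset.sum_add_distrib, Finset.sum_ite_mem, univ_inter, sum_const, sum_const,
              card_univ, Fintype.card_fin, smul_eq_mul, smul_eq_mul]
        _ ≤ g * s + G * L := Nat.add_le_add_right (Nat.mul_le_mul_right _ (hex u).le) _
    have h5 : ∑ u, ∑ b, (fib u b).card ≤ P * (g * s + G * L) := by
      calc ∑ u, ∑ b, (fib u b).card ≤ ∑ _u : Fin P, (g * s + G * L) :=
            Finset.sum_le_sum fun u _ => h3 u
        _ = P * (g * s + G * L) := by
            rw [sum_const, card_univ, Fintype.card_fin, smul_eq_mul]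
    have h6 : P * (g * s + G * L) = P * g * s + P * G * L := by ring
    omega

end Vale.Agent.P336.H746
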