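import Mathlib

/-!
# A random assignment of the views to the arguments

Every view is assigned to one of the `p` arguments at random; for every `i` many bits of the
`i`-th argument lie in no view assigned to `i`.
-/

namespace Vale.Agent.P336.H746

open Finset
open scoped BigOperators

section

variable {p : ℕ} {J : Type*} [Fintype J] [DecidableEq J]

lemma expect_avoid (hp : 0 < p) (i : Fin p) (D : Finset J) :
    𝔼 c : J → Fin p, (if ∀ j ∈ D, c j ≠ i then (1 : ℝ) else 0) = (1 - 1 / p) ^ D.card := by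
  classical
  have hp' : (p : ℝ) ≠ 0 := by positivity
  have h1 : (univ.filter fun c : J → Fin p => ∀ j ∈ D, c j ≠ i) =
      Fintype.piFinset (fun j => if j ∈ D then ({i}ᶜ : Finset (Fin p)) else univ) := by
    ext c
    simp only [mem_filter, mem_univ, true_and, Fintype.mem_piFinset]
    constructor
    · intro h j
      by_cases hj : j ∈ D
      · simpa [hj] using h j hj
      · simp [hj]
    · intro h j hj
      simpa [hj] using h j
  have h2 : (univ.filter fun c : J → Fin p => ∀ j ∈ D, c j ≠ i).card =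
      (p - 1) ^ D.card * p ^ (Fintype.card J - D.card) := by
    rw [h1, Fintype.card_piFinset]
    have : ∀ j : J, (if j ∈ D then ({i}ᶜ : Finset (Fin p)) else univ).card =
        if j ∈ D then p - 1 else p := by
      intro j; split_ifs <;> simp [card_compl]
    simp only [this]
    rw [Finset.prod_ite, prod_const, prod_const]
    congr 1
    · congr 1
      congr 1
      ext; simp
    · congr 1
      have h3 : (univ.filter fun j : J => j ∉ D) = Dᶜ := by ext; simp
      rw [h3, card_compl]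
  rw [Fintype.expect_eq_sum_div_card, Finset.sum_boole, h2]
  have h4 : D.card ≤ Fintype.card J := D.card_le_univ
  simp only [Fintype.card_pi, prod_const, card_univ, Fintype.card_fin, Nat.cast_pow, Nat.cast_mul]
  rw [Nat.cast_sub hp, Nat.cast_one, div_eq_iff (by positivity)]
  have h5 : (p : ℝ) ^ Fintype.card J = (p : ℝ) ^ D.card * (p : ℝ) ^ (Fintype.card J - D.card) := by
    rw [← pow_add]; congr 1; omega
  have h6 : (p : ℝ) - 1 = (1 - 1 / p) * p := by field_simp
  rw [h5, h6, mul_pow]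
  ring

lemma bernoulli_aux (δ : ℝ) (h0 : 0 ≤ δ) (h1 : δ ≤ 1) (d w : ℕ) :
    (1 - δ) ^ w * (1 + ((w : ℝ) - d) * δ) ≤ (1 - δ) ^ d := by
  have hq : 0 ≤ 1 - δ := by linarith
  rcases le_total d w with h | h
  · obtain ⟨e, rfl⟩ := Nat.exists_eq_add_of_le h
    have h2 : (1 - δ) ^ e * (1 + e * δ) ≤ 1 := by
      have h3 : 1 + (e : ℝ) * δ ≤ (1 + δ) ^ e := one_add_mul_le_pow (by linarith) e
      calc (1 - δ) ^ e * (1 + e * δ) ≤ (1 - δ) ^ e * (1 + δ) ^ e := by gcongr
        _ = (1 - δ ^ 2) ^ e := by rw [← mul_pow]; congr 1; ring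
        _ ≤ 1 := pow_le_one₀ (by nlinarith) (by nlinarith [sq_nonneg δ])
    have h4 : ((d + e : ℕ) : ℝ) - d = e := by push_cast; ring
    rw [h4, pow_add]
    calc (1 - δ) ^ d * (1 - δ) ^ e * (1 + e * δ) = (1 - δ) ^ d * ((1 - δ) ^ e * (1 + e * δ)) := by
          ring
      _ ≤ (1 - δ) ^ d * 1 := by gcongr
      _ = _ := mul_one _
  · obtain ⟨e, rfl⟩ := Nat.exists_eq_add_of_le h
    have h3 : 1 + (e : ℝ) * (-δ) ≤ (1 + (-δ)) ^ e := one_add_mul_le_pow (by linarith) e
    have h4 : (w : ℝ) - ((w + e : ℕ) : ℝ) = -e := by push_cast; ring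
    rw [h4, pow_add]
    have h5 : 1 + -(e : ℝ) * δ ≤ (1 - δ) ^ e := by
      calc 1 + -(e : ℝ) * δ = 1 + (e : ℝ) * (-δ) := by ring
        _ ≤ (1 + (-δ)) ^ e := h3
        _ = (1 - δ) ^ e := by congr 1
    gcongr

variable {m : ℕ}

/-- The views containing the bit `a` of the argument `i`. -/
def views (V : J → Finset (Fin p × Fin m)) (i : Fin p) (a : Fin m) : Finset J :=
  univ.filter fun j => (i, a) ∈ V j

/-- A random assignment works for all cells: the cell `κ` is a set `Q κ` of bits of the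
argument `ar κ`. -/
theorem exists_color (hp : 0 < p) {K : Type*} [Fintype K] (ar : K → Fin p)
    (Q : K → Finset (Fin m)) (L : ℕ) (hL : 0 < L) (hQ : ∀ κ, L ≤ (Q κ).card)
    (V : J → Finset (Fin p × Fin m)) (w k : ℕ)
    (hk : ∀ j, (V j).card ≤ k)
    (hw : ∀ κ, ∑ a ∈ Q κ, (views V (ar κ) a).card ≤ w * (Q κ).card)
    (T : ℕ) (hT : 2 * (T : ℝ) ≤ L * (1 - 1 / p) ^ w)
    (hkw : 4 * (Fintype.card K : ℝ) * w * k < L * ((1 - 1 / p) ^ w) ^ 2) :
    ∃ c : J → Fin p, ∀ κ,
      T ≤ ((Q κ).filter fun a : Fin m => ∀ j ∈ views V (ar κ) a, c j ≠ ar κ).card := by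
  classical
  have hp' : (0 : ℝ) < p := by exact_mod_cast hp
  have hL' : (0 : ℝ) < L := by exact_mod_cast hL
  have hp1 : (1 : ℝ) / p ≤ 1 := by
    rw [div_le_one hp']
    exact_mod_cast hp
  have hp0 : (0 : ℝ) ≤ 1 / p := by positivity
  set q : ℝ := 1 - 1 / p with hq
  have hq0 : 0 ≤ q := by linarith
  have hq1 : q ≤ 1 := by linarith
  have hqw0 : 0 ≤ q ^ w := pow_nonneg hq0 _
  have hqpos : 0 < q ^ w := by
    refine lt_of_le_of_ne hqw0 fun h => ?_
    rw [← h] at hkw
    have : (0 : ℝ) ≤ 4 * (Fintype.card K) * w * k := by positivity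
    norm_num at hkw
    linarith
  set Z : K → Fin m → (J → Fin p) → ℝ := fun κ a c =>
    if ∀ j ∈ views V (ar κ) a, c j ≠ ar κ then 1 else 0 with hZ
  set Y : K → (J → Fin p) → ℝ := fun κ c => ∑ a ∈ Q κ, Z κ a c with hY
  have hYcard : ∀ κ c, Y κ c =
      (((Q κ).filter fun a : Fin m => ∀ j ∈ views V (ar κ) a, c j ≠ ar κ).card : ℝ) := by
    intro κ c
    simp only [hY, hZ, Finset.sum_boole]
  have hEZ : ∀ κ a, 𝔼 c, Z κ a c = q ^ (views V (ar κ) a).card :=
    fun κ a => expect_avoid hp (ar κ) _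
  have hEY : ∀ κ, 𝔼 c, Y κ c = ∑ a ∈ Q κ, q ^ (views V (ar κ) a).card := by
    intro κ
    simp only [hY, Finset.expect_sum_comm, hEZ]
  have hmu : ∀ κ, ((Q κ).card : ℝ) * q ^ w ≤ 𝔼 c, Y κ c := by
    intro κ
    rw [hEY]
    have h1 : ∀ a, q ^ w * (1 + ((w : ℝ) - (views V (ar κ) a).card) * (1 / p)) ≤
        q ^ (views V (ar κ) a).card := fun a => bernoulli_aux (1 / p) hp0 hp1 _ _
    have h2 : ((Q κ).card : ℝ) * q ^ w ≤
        ∑ a ∈ Q κ, q ^ w * (1 + ((w : ℝ) - (views V (ar κ) a).card) * (1 / p)) := by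
      rw [← Finset.mul_sum, Finset.sum_add_distrib, ← Finset.sum_mul, Finset.sum_sub_distrib]
      simp only [sum_const, nsmul_eq_mul, mul_one]
      have h3 : (∑ a ∈ Q κ, ((views V (ar κ) a).card : ℝ)) ≤ (Q κ).card * w := by
        have := hw κ
        have h4 : ((∑ a ∈ Q κ, (views V (ar κ) a).card : ℕ) : ℝ) ≤
            ((w * (Q κ).card : ℕ) : ℝ) := by
          exact_mod_cast this
        push_cast at h4
        linarith
      have h5 : 0 ≤ (((Q κ).card : ℝ) * w - ∑ a ∈ Q κ, ((views V (ar κ) a).card : ℝ)) *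
          (1 / p) := mul_nonneg (by linarith) hp0
      nlinarith
    exact h2.trans (Finset.sum_le_sum fun a _ => h1 a)
  have hvar : ∀ κ, 𝔼 c, (Y κ c - 𝔼 c', Y κ c') ^ 2 ≤ (Q κ).card * w * k := by
    intro κ
    set e := 𝔼 c', Y κ c' with he
    have h1 : 𝔼 c, (Y κ c - e) ^ 2 = (𝔼 c, Y κ c ^ 2) - e ^ 2 := by
      have : ∀ c, (Y κ c - e) ^ 2 = Y κ c ^ 2 - 2 * e * Y κ c + e ^ 2 := by intro c; ring
      simp only [this]
      have : Nonempty (Fin p) := ⟨⟨0, hp⟩⟩
      rw [Finset.expect_add_distrib, Finset.expect_sub_distrib, ← Finset.mul_expect,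
        Fintype.expect_const, ← he]
      ring
    have h2 : (𝔼 c, Y κ c ^ 2) =
        ∑ a ∈ Q κ, ∑ a' ∈ Q κ, q ^ ((views V (ar κ) a ∪ views V (ar κ) a').card) := by
      have : ∀ c, Y κ c ^ 2 = ∑ a ∈ Q κ, ∑ a' ∈ Q κ,
          (if ∀ j ∈ views V (ar κ) a ∪ views V (ar κ) a', c j ≠ ar κ
          then (1 : ℝ) else 0) := by
        intro c
        simp only [hY, sq, Finset.sum_mul_sum]
        refine Finset.sum_congr rfl fun a _ => Finset.sum_congr rfl fun a' _ => ?_
        simp only [hZ, mem_union]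
        by_cases ha : ∀ j ∈ views V (ar κ) a, c j ≠ ar κ
        · by_cases ha' : ∀ j ∈ views V (ar κ) a', c j ≠ ar κ
          · have : ∀ j, j ∈ views V (ar κ) a ∨ j ∈ views V (ar κ) a' → c j ≠ ar κ := by
              rintro j (h | h)
              · exact ha j h
              · exact ha' j h
            rw [if_pos ha, if_pos ha', if_pos this]; norm_num
          · have : ¬ ∀ j, j ∈ views V (ar κ) a ∨ j ∈ views V (ar κ) a' → c j ≠ ar κ :=
              fun h => ha' fun j hj => h j (Or.inr hj)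
            rw [if_neg ha', if_neg this]; simp
        · have : ¬ ∀ j, j ∈ views V (ar κ) a ∨ j ∈ views V (ar κ) a' → c j ≠ ar κ :=
            fun h => ha fun j hj => h j (Or.inl hj)
          rw [if_neg ha, if_neg this]; simp
      simp only [this, Finset.expect_sum_comm]
      refine Finset.sum_congr rfl fun a _ => Finset.sum_congr rfl fun a' _ => ?_
      exact expect_avoid hp (ar κ) _
    have h3 : e ^ 2 = ∑ a ∈ Q κ, ∑ a' ∈ Q κ,
        q ^ ((views V (ar κ) a).card + (views V (ar κ) a').card) := by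
      rw [he, hEY, sq, Finset.sum_mul_sum]
      simp only [pow_add]
    have h4 : ∀ a a', q ^ ((views V (ar κ) a ∪ views V (ar κ) a').card) -
        q ^ ((views V (ar κ) a).card + (views V (ar κ) a').card) ≤
        ((views V (ar κ) a ∩ views V (ar κ) a').card : ℝ) := by
      intro a a'
      by_cases h : views V (ar κ) a ∩ views V (ar κ) a' = ∅
      · have h5 : (views V (ar κ) a ∪ views V (ar κ) a').card =
            (views V (ar κ) a).card + (views V (ar κ) a').card :=
          card_union_of_disjoint (Finset.disjoint_iff_inter_eq_empty.2 h)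
        rw [h5, sub_self]
        positivity
      · have h5 : (1 : ℝ) ≤ ((views V (ar κ) a ∩ views V (ar κ) a').card : ℝ) := by
          have := Finset.card_pos.2 (Finset.nonempty_iff_ne_empty.2 h)
          exact_mod_cast this
        have h6 : q ^ ((views V (ar κ) a ∪ views V (ar κ) a').card) ≤ 1 := pow_le_one₀ hq0 hq1
        have h7 : 0 ≤ q ^ ((views V (ar κ) a).card + (views V (ar κ) a').card) :=
          pow_nonneg hq0 _
        linarith
    have h8 : ∀ a, ∑ a' ∈ Q κ, (views V (ar κ) a ∩ views V (ar κ) a').card ≤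
        (views V (ar κ) a).card * k := by
      intro a
      have h9 : ∀ a', (views V (ar κ) a ∩ views V (ar κ) a').card =
          ∑ j ∈ views V (ar κ) a, if (ar κ, a') ∈ V j then 1 else 0 := by
        intro a'
        rw [Finset.sum_boole, Nat.cast_id]
        congr 1
        ext j
        simp [views]
      simp only [h9]
      rw [Finset.sum_comm, ← smul_eq_mul, ← Finset.sum_const]
      refine Finset.sum_le_sum fun j _ => ?_
      rw [Finset.sum_boole, Nat.cast_id]
      refine le_trans ?_ (hk j)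
      refine Finset.card_le_card_of_injOn (fun a' => (ar κ, a')) ?_ ?_
      · intro a' ha'
        have := (Finset.mem_filter.1 (Finset.mem_coe.1 ha')).2
        exact this
      · intro x _ y _ hxy
        simpa using hxy
    have h10 : (∑ a ∈ Q κ, ∑ a' ∈ Q κ, ((views V (ar κ) a ∩ views V (ar κ) a').card : ℝ)) ≤
        (Q κ).card * w * k := by
      have h11 : (∑ a ∈ Q κ, ∑ a' ∈ Q κ, (views V (ar κ) a ∩ views V (ar κ) a').card) ≤
          w * (Q κ).card * k := by
        calc (∑ a ∈ Q κ, ∑ a' ∈ Q κ, (views V (ar κ) a ∩ views V (ar κ) a').card)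
            ≤ ∑ a ∈ Q κ, (views V (ar κ) a).card * k := Finset.sum_le_sum fun a _ => h8 a
          _ = (∑ a ∈ Q κ, (views V (ar κ) a).card) * k := by rw [Finset.sum_mul]
          _ ≤ w * (Q κ).card * k := Nat.mul_le_mul_right _ (hw κ)
      have h12 : ((∑ a ∈ Q κ, ∑ a' ∈ Q κ, (views V (ar κ) a ∩ views V (ar κ) a').card : ℕ) : ℝ) ≤
          ((w * (Q κ).card * k : ℕ) : ℝ) := by exact_mod_cast h11
      push_cast at h12
      linarith
    rw [h1, h2, h3, ← Finset.sum_sub_distrib]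
    refine le_trans (Finset.sum_le_sum fun a _ => ?_) h10
    rw [← Finset.sum_sub_distrib]
    exact Finset.sum_le_sum fun a' _ => h4 a a'
  have hQpos : ∀ κ, (0 : ℝ) < (Q κ).card := by
    intro κ
    have := hQ κ
    have : 0 < (Q κ).card := by omega
    exact_mod_cast this
  have hQL : ∀ κ, (L : ℝ) ≤ (Q κ).card := fun κ => by exact_mod_cast hQ κ
  -- Chebyshev
  have hcheb : ∀ κ c, (if Y κ c < (Q κ).card * q ^ w / 2 then (1 : ℝ) else 0) ≤
      4 / ((Q κ).card * q ^ w) ^ 2 * (Y κ c - 𝔼 c', Y κ c') ^ 2 := by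
    intro κ c
    have hpos : 0 < (Q κ).card * q ^ w := mul_pos (hQpos κ) hqpos
    split_ifs with h
    · have h1 := hmu κ
      have h2 : (Q κ).card * q ^ w / 2 ≤ (𝔼 c', Y κ c') - Y κ c := by linarith
      have h3 : ((Q κ).card * q ^ w / 2) ^ 2 ≤ (Y κ c - 𝔼 c', Y κ c') ^ 2 := by
        have : (Y κ c - 𝔼 c', Y κ c') ^ 2 = ((𝔼 c', Y κ c') - Y κ c) ^ 2 := by ring
        rw [this]
        exact pow_le_pow_left₀ (by positivity) h2 2
      have h4 : ∀ q' : ℝ, 0 < q' → (1 : ℝ) = 4 / q' ^ 2 * (q' / 2) ^ 2 := by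
        intro q' hq'
        field_simp
        norm_num
      calc (1 : ℝ) = 4 / ((Q κ).card * q ^ w) ^ 2 * ((Q κ).card * q ^ w / 2) ^ 2 := h4 _ hpos
        _ ≤ _ := by gcongr
    · positivity
  have hone : ∀ κ, 4 / (((Q κ).card : ℝ) * q ^ w) ^ 2 * ((Q κ).card * w * k) ≤
      4 * w * k / (L * (q ^ w) ^ 2) := by
    intro κ
    have h1 := hQpos κ
    have h2 : 4 / (((Q κ).card : ℝ) * q ^ w) ^ 2 * ((Q κ).card * w * k) =
        4 * w * k / ((Q κ).card * (q ^ w) ^ 2) := by
      generalize q ^ w = z at hqpos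
      field_simp
    rw [h2]
    have := hQL κ
    gcongr
  have hsum : 𝔼 c, ∑ κ, (if Y κ c < (Q κ).card * q ^ w / 2 then (1 : ℝ) else 0) < 1 := by
    calc 𝔼 c, ∑ κ, (if Y κ c < (Q κ).card * q ^ w / 2 then (1 : ℝ) else 0)
        = ∑ κ, 𝔼 c, (if Y κ c < (Q κ).card * q ^ w / 2 then (1 : ℝ) else 0) :=
          Finset.expect_sum_comm _ _ _
      _ ≤ ∑ κ, 𝔼 c, 4 / ((Q κ).card * q ^ w) ^ 2 * (Y κ c - 𝔼 c', Y κ c') ^ 2 :=
          Finset.sum_le_sum fun κ _ => Finset.expect_le_expect fun c _ => hcheb κ c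
      _ = ∑ κ, 4 / ((Q κ).card * q ^ w) ^ 2 * 𝔼 c, (Y κ c - 𝔼 c', Y κ c') ^ 2 := by
          simp only [Finset.mul_expect]
      _ ≤ ∑ _κ : K, 4 * w * k / (L * (q ^ w) ^ 2) := by
          refine Finset.sum_le_sum fun κ _ => ?_
          exact (mul_le_mul_of_nonneg_left (hvar κ) (by positivity)).trans (hone κ)
      _ = 4 * (Fintype.card K : ℝ) * w * k / (L * (q ^ w) ^ 2) := by
          simp only [sum_const, card_univ, nsmul_eq_mul]
          ring
      _ < 1 := by
          rw [div_lt_one (by positivity)]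
          exact hkw
  have : Nonempty (Fin p) := ⟨⟨0, hp⟩⟩
  obtain ⟨c, -, hc⟩ := Finset.exists_lt_of_expect_lt (univ_nonempty) hsum
  refine ⟨c, fun κ => ?_⟩
  have h1 : ¬ Y κ c < (Q κ).card * q ^ w / 2 := by
    intro h
    have h2 : (1 : ℝ) ≤ ∑ κ, (if Y κ c < (Q κ).card * q ^ w / 2 then (1 : ℝ) else 0) := by
      calc (1 : ℝ) = (if Y κ c < (Q κ).card * q ^ w / 2 then (1 : ℝ) else 0) := by rw [if_pos h]
        _ ≤ _ := Finset.single_le_sum
            (f := fun κ => (if Y κ c < (Q κ).card * q ^ w / 2 then (1 : ℝ) else 0))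
            (fun κ _ => by positivity) (mem_univ κ)
    linarith
  have h2 : (L : ℝ) * q ^ w ≤ (Q κ).card * q ^ w := mul_le_mul_of_nonneg_right (hQL κ) hqw0
  have h3 : (T : ℝ) ≤ Y κ c := by linarith [not_lt.1 h1]
  rw [hYcard] at h3
  exact_mod_cast h3

end

end Vale.Agent.P336.H746
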