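import Vale.Agent.P336.R2.H746.AnySpec
import Vale.Agent.P336.R2.H746.AnyNum
import Vale.Agent.P336.R2.H746.Cells
import Vale.Agent.P336.R2.H746.Color
import Vale.Agent.P336.R2.H836.Assembly
import Vale.Agent.P336.R2.H836.Blocks
import Vale.Agent.P336.R2.H444.LangP

/-!
# P336: disjunctions of conjunctions of arbitrary functions for the slices of the language
-/

namespace Vale.Agent.P336.R2.H746

open Finset H836

/-- A function which does not read the changed variables keeps its value. -/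
theorem fn_mix {N p m : ℕ} (hpm : p * m ≤ N / 4) (C : AnyCircuit N) (j : Fin C.middle)
    (b : Fin (C.fanIn j)) (i : Fin p) (B : Finset (Fin m))
    (hB : ∀ v ∈ B, pos hpm (i, v) ∉ C.reads j b)
    (s : Fin (N / 4) → Bool) (x z : Fin p × Fin m → Bool) :
    C.fn j b (wordOf N p m s (mix (emb i B) x z)) = C.fn j b (wordOf N p m s x) := by
  refine C.congr j b _ _ fun v hv => wordOf_mix hpm s x z _ v fun w hw hvw => ?_
  obtain ⟨hw1, hw2⟩ := mem_emb.1 hw
  refine hB w.2 hw2 ?_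
  have h2 : (i, w.2) = w := by rw [← hw1]
  rw [h2, ← hvw]
  exact hv

theorem many_gates_any {N p m g a t : ℕ} (hp1 : 1 ≤ p) (hm : m = N / 4 / p)
    (hpm : p * m ≤ N / 4) (hp : p ≤ N / 4) (hm1 : 1 ≤ m) (ha : a ≤ m)
    (hat : 2 ^ p * t + p ≤ a) (htg : t ≤ g ^ p) (C : AnyCircuit N)
    (hC : ∀ j, ∃ B : Fin p → Fin g → Finset (Fin m), (∀ i r, a ≤ (B i r).card) ∧
      ∀ b, (∃ i, ∀ r, ∀ v ∈ B i r, pos hpm (i, v) ∉ C.reads j b) ∨
        ∃ ρ : Fin p → Fin g, ∀ i r, r ≠ ρ i → ∀ v ∈ B i r, pos hpm (i, v) ∉ C.reads j b)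
    (e : Bool) (hf : ∀ x, C.Accepts x ↔ slice H836.lang N x = e) :
    (1 : ℝ) ≤ (2 * C.middle + 1) * (2 * (1 / 2 : ℝ) ^ t) := by
  have h0 := core_blocks (γ := Fin C.middle) (a := a) (g := g) (t := t) (h := N / 4) hp1 hpm hm1
    ha hat htg (fun j s x => ∀ b, C.fn j b (wordOf N p m s x) = true)
    ?_ (if e = true then 1 else 0) ?_
  · rw [Fintype.card_fin] at h0
    exact h0
  · intro j
    obtain ⟨B, hB, hr⟩ := hC j
    refine ⟨B, fun i s x => ∀ b, (∀ r, ∀ v ∈ B i r, pos hpm (i, v) ∉ C.reads j b) →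
        C.fn j b (wordOf N p m s x) = true,
      fun ρ s x => ∀ b, (∀ i r, r ≠ ρ i → ∀ v ∈ B i r, pos hpm (i, v) ∉ C.reads j b) →
        C.fn j b (wordOf N p m s x) = true, hB, ?_, ?_, ?_⟩
    · intro i r s x z
      refine forall_congr' fun b => forall_congr' fun h => ?_
      rw [fn_mix hpm C j b i (B i r) (h r) s x z]
    · intro ρ i r hne s x z
      refine forall_congr' fun b => forall_congr' fun h => ?_
      rw [fn_mix hpm C j b i (B i r) (h i r hne) s x z]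
    · intro s x
      constructor
      · intro h
        exact ⟨fun i b _ => h b, fun ρ b _ => h b⟩
      · rintro ⟨h1, h2⟩ b
        rcases hr b with ⟨i, hi⟩ | ⟨ρ, hρ⟩
        · exact h1 i b hi
        · exact h2 ρ b hρ
  · intro s x
    have h1 : (∃ j : Fin C.middle, ∀ b, C.fn j b (wordOf N p m s x) = true) ↔
        C.Accepts (wordOf N p m s x) := Iff.rfl
    rw [h1, hf]
    have h2 := mem_lang_wordOf hp1 hm hpm hp s x
    classical
    unfold slice
    cases e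
    · rw [decide_eq_false_iff_not, h2, if_neg (by simp)]
      rcases zmod2_cases (form s x) with h3 | h3 <;> rw [h3] <;> simp
    · rw [decide_eq_true_iff, h2, if_pos rfl]

/-- The sets of variables of one gate. -/
theorem gate_sets {N p m P G s w k g L T : ℕ} (hp1 : 1 ≤ p) (hpm : p * m ≤ N / 4)
    (C : AnyCircuit N) (j : Fin C.middle) (hj : C.Grouped P G s w k j)
    (hcell : P * g * s + P * G * L < m) (hL : 1 ≤ L)
    (hT : 2 * (T : ℝ) ≤ (L : ℝ) * (1 - 1 / p) ^ w)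
    (hkw : 4 * ((p * g : ℕ) : ℝ) * w * k < (L : ℝ) * ((1 - 1 / p) ^ w) ^ 2) :
    ∃ B : Fin p → Fin g → Finset (Fin m), (∀ i r, T ≤ (B i r).card) ∧
      ∀ b, (∃ i, ∀ r, ∀ v ∈ B i r, pos hpm (i, v) ∉ C.reads j b) ∨
        ∃ ρ : Fin p → Fin g, ∀ i r, r ≠ ρ i → ∀ v ∈ B i r, pos hpm (i, v) ∉ C.reads j b := by
  classical
  obtain ⟨π, J, V, hπ, hVk, hVw, hr⟩ := hj
  have hinj := pos_injective hpm
  -- the blocks inside the vectors
  have hcells : ∀ i : Fin p, ∃ (u : Fin P) (Q : Fin g → Finset (Fin m)) (β : Fin g → Fin G),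
      (∀ b, L ≤ (Q b).card) ∧ Function.Injective β ∧ ∀ b, ∀ v ∈ Q b, π (pos hpm (i, v)) =
        (u, β b) := by
    intro i
    refine Vale.Agent.P336.H746.exists_cells (fun v => π (pos hpm (i, v))) (fun q => ?_) hcell
    refine le_trans ?_ (hπ q)
    refine Finset.card_le_card_of_injOn (fun v => pos hpm (i, v)) (fun v hv => ?_) ?_
    · simpa using hv
    · intro v _ v' _ h
      exact (Prod.mk.inj (hinj h)).2
  choose u Q β hQ hβ hQβ using hcells
  -- the random assignment of the views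
  obtain ⟨c, hc⟩ := Vale.Agent.P336.H746.exists_color (J := Fin J) hp1 (K := Fin p × Fin g)
    (fun κ => κ.1) (fun κ => Q κ.1 κ.2) L hL (fun κ => hQ κ.1 κ.2)
    (fun t => univ.filter fun q : Fin p × Fin m => pos hpm q ∈ V t) w k
    (fun t => by
      refine le_trans ?_ (hVk t)
      refine Finset.card_le_card_of_injOn (pos hpm) (fun q hq => ?_) hinj.injOn
      simpa using hq)
    (fun κ => by
      have h1 : ∀ a, (Vale.Agent.P336.H746.views
          (fun t => univ.filter fun q : Fin p × Fin m => pos hpm q ∈ V t) κ.1 a).card ≤ w := by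
        intro a
        refine le_trans (Finset.card_le_card ?_) (hVw (pos hpm (κ.1, a)))
        intro t ht
        simpa [Vale.Agent.P336.H746.views] using ht
      calc ∑ a ∈ Q κ.1 κ.2, (Vale.Agent.P336.H746.views
          (fun t => univ.filter fun q : Fin p × Fin m => pos hpm q ∈ V t) κ.1 a).card
          ≤ ∑ _a ∈ Q κ.1 κ.2, w := Finset.sum_le_sum fun a _ => h1 a
        _ = w * (Q κ.1 κ.2).card := by rw [sum_const, smul_eq_mul, mul_comm])
    T hT (by
      rw [Fintype.card_prod, Fintype.card_fin, Fintype.card_fin]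
      exact hkw)
  refine ⟨fun i r => (Q i r).filter fun a : Fin m => ∀ t ∈ Vale.Agent.P336.H746.views
    (fun t => univ.filter fun q : Fin p × Fin m => pos hpm q ∈ V t) i a, c t ≠ i,
    fun i r => by convert hc (i, r), fun b => ?_⟩
  rcases hr b with h | ⟨t, ht⟩
  · by_cases hex : ∃ i, ∀ r, ∀ v ∈ Q i r, pos hpm (i, v) ∉ C.reads j b
    · obtain ⟨i, hi⟩ := hex
      exact Or.inl ⟨i, fun r v hv => hi r v (mem_filter.1 hv).1⟩
    · push Not at hex
      choose ρ v hv hvr using hex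
      refine Or.inr ⟨ρ, fun i r hne v' hv' hr' => hne ?_⟩
      have h1 := hQβ i r v' (mem_filter.1 hv').1
      have h2 := hQβ i (ρ i) (v i) (hv i)
      have h3 := h _ hr' _ (hvr i) (by rw [h1, h2])
      rw [h1, h2] at h3
      exact hβ i (Prod.mk.inj h3).2
  · refine Or.inl ⟨c t, fun r v hv hvr => ?_⟩
    have h1 := (mem_filter.1 hv).2 t (by
      simpa [Vale.Agent.P336.H746.views] using ht hvr)
    exact h1 rfl

/-- **Grouped gates.** -/
theorem main : ∃ L : Set (List Bool), InP L ∧ ∃ K : ℕ, ∀ p R P G s k N : ℕ, 2 ≤ p → 1 ≤ R →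
    1 ≤ P → K * p * R ≤ G → P * G * s ≤ 2 * N → (K * R) ^ p ≤ s → K ^ p * R * k ≤ s →
    ∀ C : AnyCircuit N, (∀ j, C.Grouped P G s (p ^ 2) k j) →
      ((∀ x, C.Accepts x ↔ slice L N x = true) ∨ (∀ x, C.Accepts x ↔ slice L N x = false)) →
      2 ^ R ^ p ≤ C.middle := by
  refine ⟨H836.lang, H444.inP_lang, 4096, fun p R P G s k N hp hR hP hG hN hs hk C hC hf => ?_⟩
  obtain ⟨hpN, hm1, hcell, hL, hT, hkw, htg, hTm⟩ :=
    Vale.Agent.P336.H746.numerics hp hR hP hG hN hs hk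
  have hpm : p * (N / 4 / p) ≤ N / 4 := Nat.mul_div_le _ _
  have hsets := fun j => gate_sets (T := 2 ^ p * (R ^ p + 3) + p) (g := 2 * R)
    (by omega : 1 ≤ p) hpm C j (hC j) hcell hL hT hkw
  have hmain : (1 : ℝ) ≤ (2 * C.middle + 1) * (2 * (1 / 2 : ℝ) ^ (R ^ p + 3)) := by
    rcases hf with hf | hf
    · exact many_gates_any (by omega) rfl hpm hpN hm1 hTm le_rfl htg C hsets true hf
    · exact many_gates_any (by omega) rfl hpm hpN hm1 hTm le_rfl htg C hsets false hf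
  have h1 : (2 : ℝ) ^ (R ^ p + 3) * (1 / 2 : ℝ) ^ (R ^ p + 3) = 1 := by
    rw [← mul_pow]
    norm_num
  have h2 : (8 : ℝ) ≤ 2 ^ (R ^ p + 3) := by
    calc (8 : ℝ) = 2 ^ 3 := by norm_num
      _ ≤ 2 ^ (R ^ p + 3) := pow_le_pow_right₀ (by norm_num) (by omega)
  have h3 : (2 : ℝ) ^ (R ^ p + 3) ≤ (2 * C.middle + 1) * 2 := by
    calc (2 : ℝ) ^ (R ^ p + 3) = 2 ^ (R ^ p + 3) * 1 := (mul_one _).symm
      _ ≤ 2 ^ (R ^ p + 3) * ((2 * C.middle + 1) * (2 * (1 / 2 : ℝ) ^ (R ^ p + 3))) :=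
          mul_le_mul_of_nonneg_left hmain (by positivity)
      _ = (2 * C.middle + 1) * 2 * (2 ^ (R ^ p + 3) * (1 / 2 : ℝ) ^ (R ^ p + 3)) := by ring
      _ = (2 * C.middle + 1) * 2 := by rw [h1, mul_one]
  have h4 : (2 : ℝ) ^ (R ^ p) * 8 ≤ 8 * C.middle := by
    have h5 : (2 : ℝ) ^ (R ^ p) * 8 = 2 ^ (R ^ p + 3) := by rw [pow_add]; norm_num
    rw [h5]
    linarith
  have h6 : (2 : ℝ) ^ (R ^ p) ≤ C.middle := by linarith
  exact_mod_cast h6

end Vale.Agent.P336.R2.H746
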