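import Vale.Agent.P336.H663.Defs

/-!
# P336: disjunctions of conjunctions of arbitrary functions
-/

namespace Vale.Agent.P336

/-- An OR of ANDs of arbitrary functions of `n` bits: `fn j b` is the `b`-th function under the
`j`-th AND gate, and it depends only on the variables in `reads j b`.  The OR-AND-OR circuits are
the case in which all functions `fn j b` are disjunctions of literals. -/
structure AnyCircuit (n : ℕ) where
  /-- the number of AND gates -/
  middle : ℕ
  /-- the number of functions under an AND gate -/
  fanIn : Fin middle → ℕ
  /-- the functions -/
  fn : (j : Fin middle) → Fin (fanIn j) → (Fin n → Bool) → Bool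
  /-- the variables which they read -/
  reads : (j : Fin middle) → Fin (fanIn j) → Finset (Fin n)
  /-- they depend only on these variables -/
  congr : ∀ j b x y, (∀ v ∈ reads j b, x v = y v) → fn j b x = fn j b y

/-- The input `x` is accepted. -/
def AnyCircuit.Accepts {n : ℕ} (C : AnyCircuit n) (x : Fin n → Bool) : Prop :=
  ∃ j, ∀ b, C.fn j b x = true

/-- The AND gate `j` is grouped: there are a partition `π` of the variables into `P` groups of
`G` blocks of at most `s` variables and sets `V 0, …, V (J - 1)` of at most `k` variables, every
variable in at most `w` of them, such that every function under the gate `j` reads variables of at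
most one block of every group, or reads only variables of one of the sets `V t`. -/
def AnyCircuit.Grouped {n : ℕ} (C : AnyCircuit n) (P G s w k : ℕ) (j : Fin C.middle) : Prop :=
  ∃ (π : Fin n → Fin P × Fin G) (J : ℕ) (V : Fin J → Finset (Fin n)),
    (∀ q, (Finset.univ.filter fun v => π v = q).card ≤ s) ∧
    (∀ t, (V t).card ≤ k) ∧ (∀ v, (Finset.univ.filter fun t => v ∈ V t).card ≤ w) ∧
    ∀ b, (∀ v ∈ C.reads j b, ∀ v' ∈ C.reads j b, (π v).1 = (π v').1 → π v = π v') ∨
      ∃ t, C.reads j b ⊆ V t

end Vale.Agent.P336
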