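import Vale.Agent.P336.R2.H746.CylCore

/-!
# P336: covers from correlations, with a small set of bad inputs
-/

namespace Vale.Agent.P336.Cyl

open Finset Vale.Agent.P336.H746
open scoped BigOperators

variable {p r m ℓ : ℕ}

/-- The form is balanced. -/
theorem form_balanced (hp : 0 < p) (hℓ : 0 < ℓ) (hr : r = p * ℓ) (hm : r ≤ m) (t : ℕ)
    (ht : 2 ^ p * (t + 3) + p ≤ ℓ) :
    𝔼 s : Fin r → ZMod 2, |𝔼 x : Fin m → ZMod 2, sgn (form p s x)| ≤ 1 / 2 := by
  classical
  have h2 := corr_le (m := m) hp hℓ hr (J := Fin 0) (fun _ _ _ => 1) (by simp)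
      (fun i => (i : ℕ) * ℓ)
      (fun i => univ.filter fun v : Fin m => (i : ℕ) * ℓ ≤ (v : ℕ) ∧ (v : ℕ) < (i : ℕ) * ℓ + ℓ)
      (fun i v hv => (mem_filter.1 hv).2)
      (by
        intro i i' hne
        rw [Finset.disjoint_left]
        intro v hv hv'
        have h3 := (mem_filter.1 hv).2
        have h4 := (mem_filter.1 hv').2
        apply hne
        have e1 : (v : ℕ) / ℓ = i := Nat.div_eq_of_lt_le h3.1 (by rw [add_mul, one_mul]; exact h3.2)
        have e2 : (v : ℕ) / ℓ = i' := Nat.div_eq_of_lt_le h4.1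
          (by rw [add_mul, one_mul]; exact h4.2)
        exact Fin.ext (e1.symm.trans e2))
      (t + 3)
      (by
        intro i
        refine ht.trans ?_
        have hi : (i : ℕ) * ℓ + ℓ ≤ m := by
          have : ((i : ℕ) + 1) * ℓ ≤ p * ℓ := Nat.mul_le_mul_right _ i.isLt
          rw [add_mul, one_mul] at this
          omega
        have hc : (Finset.univ : Finset (Fin ℓ)).card ≤ (univ.filter fun v : Fin m =>
            (i : ℕ) * ℓ ≤ (v : ℕ) ∧ (v : ℕ) < (i : ℕ) * ℓ + ℓ).card := by
          refine Finset.card_le_card_of_injOn (fun u : Fin ℓ => (⟨(i : ℕ) * ℓ + u, by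
            have := u.isLt; omega⟩ : Fin m)) (fun u _ => ?_) ?_
          · simp
          · intro u _ u' _ h
            simpa [Fin.ext_iff] using h
        simpa using hc)
      (fun j => j.elim0) (fun j => j.elim0)
  simp only [Finset.univ_eq_empty, Finset.prod_empty, one_mul] at h2
  refine h2.trans ?_
  calc (1 / 2 : ℝ) ^ (t + 3) ≤ (1 / 2) ^ 1 :=
        pow_le_pow_of_le_one (by norm_num) (by norm_num) (by omega)
    _ = 1 / 2 := by norm_num

open Classical in
/-- The lower bound from the correlations of the gates, for covers which are correct except on the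
bad inputs. -/
theorem cover_robust (hbal : 𝔼 s : Fin r → ZMod 2, |𝔼 x : Fin m → ZMod 2, sgn (form p s x)| ≤ 1 / 2)
    (t : ℕ) {M : ℕ} (γ : Fin M → (Fin r → ZMod 2) → (Fin m → ZMod 2) → Prop) (b : ZMod 2)
    (Bad : (Fin r → ZMod 2) → (Fin m → ZMod 2) → Prop)
    (h1 : ∀ s x, form p s x = b → ∃ j, γ j s x)
    (h2 : ∀ s x, (∃ j, γ j s x) → form p s x = b ∨ Bad s x)
    (hbad : M * 𝔼 s : Fin r → ZMod 2, 𝔼 x : Fin m → ZMod 2, (if Bad s x then (1 : ℝ) else 0) ≤
      1 / 8)
    (hgate : ∀ j, 𝔼 s : Fin r → ZMod 2, |𝔼 x : Fin m → ZMod 2,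
      (if γ j s x then (1 : ℝ) else 0) * sgn (form p s x)| ≤ (1 / 2 : ℝ) ^ (t + 3)) :
    2 ^ t ≤ M := by
  -- the accepted inputs
  have hd : ∀ z : ZMod 2, z = 0 ∨ z = 1 := by decide
  have hcov : ∀ s x, (if form p s x = b then (1 : ℝ) else 0) -
      M * (if Bad s x then (1 : ℝ) else 0) ≤
      sgn b * ∑ j, (if γ j s x then (1 : ℝ) else 0) * sgn (form p s x) := by
    intro s x
    rw [← Finset.sum_mul]
    set W : ℝ := ∑ j, (if γ j s x then (1 : ℝ) else 0) with hW
    have hW0 : 0 ≤ W := Finset.sum_nonneg fun j _ => by split_ifs <;> norm_num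
    have hWM : W ≤ M := by
      calc W ≤ ∑ _j : Fin M, (1 : ℝ) := Finset.sum_le_sum fun j _ => by split_ifs <;> norm_num
        _ = M := by simp
    have hB0 : (0 : ℝ) ≤ M * (if Bad s x then (1 : ℝ) else 0) := by
      split_ifs <;> positivity
    by_cases hf : form p s x = b
    · obtain ⟨j, hj⟩ := h1 s x hf
      have hW1 : 1 ≤ W := by
        calc (1 : ℝ) = (if γ j s x then (1 : ℝ) else 0) := by rw [if_pos hj]
          _ ≤ W := Finset.single_le_sum (f := fun j => (if γ j s x then (1 : ℝ) else 0))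
            (fun j _ => by split_ifs <;> norm_num) (mem_univ j)
      rw [if_pos hf, hf]
      have : sgn b * (W * sgn b) = W := by
        rcases hd b with rfl | rfl <;> simp [sgn]
      rw [this]
      linarith
    · rw [if_neg hf]
      have hs : sgn b * (W * sgn (form p s x)) = -W := by
        rcases hd b with rfl | rfl <;> rcases hd (form p s x) with h | h
        · exact absurd h hf
        · rw [h]; simp [sgn]
        · rw [h]; simp [sgn]
        · exact absurd h hf
      rw [hs]
      by_cases hB : Bad s x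
      · rw [if_pos hB]
        linarith
      · have : W = 0 := Finset.sum_eq_zero fun j _ => by
          rw [if_neg]
          intro hj
          rcases h2 s x ⟨j, hj⟩ with h | h
          · exact hf h
          · exact hB h
        rw [this, if_neg hB]
        simp
  have hval : ∀ (s : Fin r → ZMod 2) (x : Fin m → ZMod 2), (if form p s x = b then (1 : ℝ) else 0) =
      (1 + sgn b * sgn (form p s x)) / 2 := by
    intro s x
    rcases hd b with rfl | rfl <;> rcases hd (form p s x) with h | h <;> rw [h] <;>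
      simp [sgn]
  have h4 : (1 / 4 : ℝ) ≤ 𝔼 s : Fin r → ZMod 2, 𝔼 x : Fin m → ZMod 2,
      (if form p s x = b then (1 : ℝ) else 0) := by
    have h3 : ∀ s : Fin r → ZMod 2, (1 - |𝔼 x : Fin m → ZMod 2, sgn (form p s x)|) / 2 ≤
        𝔼 x : Fin m → ZMod 2, (if form p s x = b then (1 : ℝ) else 0) := by
      intro s
      simp only [hval]
      have h4 : 𝔼 x : Fin m → ZMod 2, (1 + sgn b * sgn (form p s x)) / 2 =
          (1 + sgn b * 𝔼 x : Fin m → ZMod 2, sgn (form p s x)) / 2 := by
        rw [← Finset.expect_div, Finset.expect_add_distrib, Fintype.expect_const,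
          ← Finset.mul_expect]
      rw [h4]
      have h5 : -|𝔼 x : Fin m → ZMod 2, sgn (form p s x)| ≤
          sgn b * 𝔼 x : Fin m → ZMod 2, sgn (form p s x) := by
        have := neg_abs_le (sgn b * (𝔼 x : Fin m → ZMod 2, sgn (form p s x)))
        rwa [abs_mul, abs_sgn, one_mul] at this
      linarith
    refine le_trans ?_ (Finset.expect_le_expect fun s _ => h3 s)
    rw [← Finset.expect_div, Finset.expect_sub_distrib, Fintype.expect_const]
    linarith
  have h3 : (𝔼 s : Fin r → ZMod 2, 𝔼 x : Fin m → ZMod 2,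
      (if form p s x = b then (1 : ℝ) else 0)) -
      M * 𝔼 s : Fin r → ZMod 2, 𝔼 x : Fin m → ZMod 2, (if Bad s x then (1 : ℝ) else 0) ≤
      M * (1 / 2 : ℝ) ^ (t + 3) := by
    calc (𝔼 s : Fin r → ZMod 2, 𝔼 x : Fin m → ZMod 2,
          (if form p s x = b then (1 : ℝ) else 0)) -
          M * 𝔼 s : Fin r → ZMod 2, 𝔼 x : Fin m → ZMod 2, (if Bad s x then (1 : ℝ) else 0)
        = 𝔼 s : Fin r → ZMod 2, 𝔼 x : Fin m → ZMod 2,
          ((if form p s x = b then (1 : ℝ) else 0) - M * (if Bad s x then (1 : ℝ) else 0)) := by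
          simp only [Finset.expect_sub_distrib, ← Finset.mul_expect]
      _ ≤ 𝔼 s : Fin r → ZMod 2, 𝔼 x : Fin m → ZMod 2,
          sgn b * ∑ j, (if γ j s x then (1 : ℝ) else 0) * sgn (form p s x) :=
          Finset.expect_le_expect fun s _ => Finset.expect_le_expect fun x _ => hcov s x
      _ = ∑ j, 𝔼 s : Fin r → ZMod 2, sgn b * 𝔼 x : Fin m → ZMod 2,
          (if γ j s x then (1 : ℝ) else 0) * sgn (form p s x) := by
          simp only [← Finset.mul_expect, Finset.expect_sum_comm, Finset.mul_sum]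
      _ ≤ ∑ _j : Fin M, (1 / 2 : ℝ) ^ (t + 3) := by
          refine Finset.sum_le_sum fun j _ => le_trans ?_ (hgate j)
          refine Finset.expect_le_expect fun s _ => ?_
          refine (le_abs_self _).trans ?_
          rw [abs_mul, abs_sgn, one_mul]
      _ = M * (1 / 2 : ℝ) ^ (t + 3) := by simp
  have h5 : (2 : ℝ) ^ t * (1 / 2) ^ t = 1 := by rw [← mul_pow]; norm_num
  have h6 : (2 : ℝ) ^ t ≤ M := by
    have h6 : (1 / 8 : ℝ) ≤ M * (1 / 2 : ℝ) ^ (t + 3) := by linarith
    have h7 : (2 : ℝ) ^ t * (1 / 8) ≤ 2 ^ t * (M * (1 / 2 : ℝ) ^ (t + 3)) :=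
      mul_le_mul_of_nonneg_left h6 (by positivity)
    have h8 : (2 : ℝ) ^ t * (M * (1 / 2 : ℝ) ^ (t + 3)) = M / 8 * (2 ^ t * (1 / 2) ^ t) := by
      rw [pow_add]; ring
    rw [h8, h5] at h7
    linarith
  exact_mod_cast h6

end Vale.Agent.P336.Cyl
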