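import Mathlib

/-!
# A cube inequality

`G` is a finite abelian group, `e₁, …, eₙ : V → G` are homomorphisms from a finite group and
`Φ₁, …, Φₙ : G → [-1, 1]` are functions, `Φᵢ` invariant under the translations by `eᵢ(V)`. Then
`|𝔼 Φ₁ ⋯ Φₙ σ| ^ (2 ^ n)` is at most the average of the `n`-fold multiplicative derivative of `σ`
in the directions `eᵢ(V)`.
-/

namespace Vale.Agent.P336.H746

open Finset
open scoped BigOperators

lemma sq_expect_le {α : Type*} [Fintype α] [Nonempty α] (f : α → ℝ) :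
    (𝔼 x, f x) ^ 2 ≤ 𝔼 x, f x ^ 2 := by
  have := Finset.expect_mul_sq_le_sq_mul_sq (univ : Finset α) f (fun _ => 1)
  simpa using this

lemma pow_expect_le {α : Type*} [Fintype α] [Nonempty α] (f : α → ℝ) (hf : ∀ x, 0 ≤ f x)
    (n : ℕ) : (𝔼 x, f x) ^ (2 ^ n) ≤ 𝔼 x, f x ^ (2 ^ n) := by
  induction n with
  | zero => simp
  | succ n ih =>
    calc (𝔼 x, f x) ^ (2 ^ (n + 1)) = ((𝔼 x, f x) ^ (2 ^ n)) ^ 2 := by rw [pow_succ, pow_mul]
      _ ≤ (𝔼 x, f x ^ (2 ^ n)) ^ 2 := by
          apply pow_le_pow_left₀ _ ih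
          exact pow_nonneg (Finset.expect_nonneg fun x _ => hf x) _
      _ ≤ 𝔼 x, (f x ^ (2 ^ n)) ^ 2 := sq_expect_le _
      _ = 𝔼 x, f x ^ (2 ^ (n + 1)) := by
          refine Finset.expect_congr rfl fun x _ => ?_
          rw [← pow_mul, ← pow_succ]

section

variable {G V : Type*} [AddCommGroup G] [Fintype G] [AddCommGroup V] [Fintype V]

lemma expect_translate (f : G → ℝ) (a : G) : 𝔼 x, f (x + a) = 𝔼 x, f x :=
  Fintype.expect_equiv (Equiv.addRight a) _ _ (fun _ => rfl)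

/-- The van der Corput inequality. -/
lemma vdc (e : V →+ G) (Φ H : G → ℝ) (hΦ : ∀ x d, Φ (x + e d) = Φ x) (hb : ∀ x, |Φ x| ≤ 1) :
    (𝔼 x, Φ x * H x) ^ 2 ≤ 𝔼 d : V, 𝔼 x, H x * H (x + e d) := by
  have h0 : ∀ d : V, 𝔼 x, Φ x * H x = 𝔼 x, Φ x * H (x + e d) := by
    intro d
    rw [← expect_translate (fun x => Φ x * H x) (e d)]
    simp [hΦ]
  have h1 : 𝔼 x, Φ x * H x = 𝔼 x, Φ x * 𝔼 d : V, H (x + e d) := by
    calc 𝔼 x, Φ x * H x = 𝔼 _d : V, 𝔼 x, Φ x * H x := (Fintype.expect_const _).symm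
      _ = 𝔼 d : V, 𝔼 x, Φ x * H (x + e d) := Finset.expect_congr rfl fun d _ => h0 d
      _ = 𝔼 x, 𝔼 d : V, Φ x * H (x + e d) := Finset.expect_comm _ _ _
      _ = _ := by simp_rw [Finset.mul_expect]
  have h2 : ∀ x, (Φ x * 𝔼 d : V, H (x + e d)) ^ 2 ≤ (𝔼 d : V, H (x + e d)) ^ 2 := by
    intro x
    rw [mul_pow]
    have h3 : Φ x ^ 2 ≤ 1 := by
      have := hb x
      rw [← sq_abs]
      exact pow_le_one₀ (abs_nonneg _) this
    nlinarith [sq_nonneg (𝔼 d : V, H (x + e d))]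
  have h4 : ∀ d d' : V, 𝔼 x, H (x + e d) * H (x + e d') = 𝔼 x, H x * H (x + e (d' - d)) := by
    intro d d'
    rw [← expect_translate (fun x => H x * H (x + e (d' - d))) (e d)]
    refine Finset.expect_congr rfl fun x _ => ?_
    have : x + e d + e (d' - d) = x + e d' := by rw [map_sub]; abel
    rw [this]
  calc (𝔼 x, Φ x * H x) ^ 2 = (𝔼 x, Φ x * 𝔼 d : V, H (x + e d)) ^ 2 := by rw [h1]
    _ ≤ 𝔼 x, (Φ x * 𝔼 d : V, H (x + e d)) ^ 2 := sq_expect_le _
    _ ≤ 𝔼 x, (𝔼 d : V, H (x + e d)) ^ 2 := Finset.expect_le_expect fun x _ => h2 x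
    _ = 𝔼 x, 𝔼 d : V, 𝔼 d' : V, H (x + e d) * H (x + e d') := by
        refine Finset.expect_congr rfl fun x _ => ?_
        rw [sq, Finset.expect_mul_expect]
    _ = 𝔼 d : V, 𝔼 x, 𝔼 d' : V, H (x + e d) * H (x + e d') := Finset.expect_comm _ _ _
    _ = 𝔼 d : V, 𝔼 d' : V, 𝔼 x, H (x + e d) * H (x + e d') :=
        Finset.expect_congr rfl fun d _ => Finset.expect_comm _ _ _
    _ = 𝔼 d : V, 𝔼 d' : V, 𝔼 x, H x * H (x + e (d' - d)) := by simp_rw [h4]
    _ = 𝔼 _d : V, 𝔼 d' : V, 𝔼 x, H x * H (x + e d') := by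
        refine Finset.expect_congr rfl fun d _ => ?_
        exact Fintype.expect_equiv (Equiv.subRight d) _ _ (fun _ => rfl)
    _ = 𝔼 d : V, 𝔼 x, H x * H (x + e d) := Fintype.expect_const _

/-- The average of the multiplicative derivatives of `σ` in the directions of the list. -/
noncomputable def cube : List (V →+ G) → (G → ℝ) → ℝ
  | [], σ => 𝔼 x, σ x
  | e :: L, σ => 𝔼 d : V, cube L (fun x => σ x * σ (x + e d))

theorem abs_pow_le_cube (n : ℕ) : ∀ (L : List ((V →+ G) × (G → ℝ))) (_ : L.length = n)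
    (q : (V →+ G) × (G → ℝ)) (σ : G → ℝ),
      (∀ r ∈ q :: L, (∀ x d, r.2 (x + r.1 d) = r.2 x) ∧ ∀ x, |r.2 x| ≤ 1) →
      |𝔼 x, ((q :: L).map (fun r => r.2 x)).prod * σ x| ^ (2 ^ (n + 1)) ≤
        cube ((q :: L).map Prod.fst) σ := by
  induction n with
  | zero =>
    intro L hL q σ h
    obtain rfl := List.length_eq_zero_iff.1 hL
    have hq := h q (by simp)
    have := vdc q.1 q.2 σ hq.1 hq.2
    simpa [cube] using this
  | succ n ih =>
    intro L hL q σ h
    obtain ⟨q', L, rfl⟩ := List.exists_cons_of_length_eq_add_one hL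
    have hq := h q (by simp)
    set H : G → ℝ := fun x => ((q' :: L).map (fun r => r.2 x)).prod * σ x with hH
    have h1 := vdc q.1 q.2 H hq.1 hq.2
    have h2 : ∀ d : V, |𝔼 x, H x * H (x + q.1 d)| ^ (2 ^ (n + 1)) ≤
        cube ((q' :: L).map Prod.fst) (fun x => σ x * σ (x + q.1 d)) := by
      intro d
      let g : (V →+ G) × (G → ℝ) → (V →+ G) × (G → ℝ) :=
        fun r => (r.1, fun x => r.2 x * r.2 (x + q.1 d))
      have h3 := ih (L.map g) (by simpa using hL) (g q') (fun x => σ x * σ (x + q.1 d)) ?_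
      · have h4 : (List.map Prod.fst (g q' :: L.map g)) = List.map Prod.fst (q' :: L) := by
          simp [g, Function.comp_def]
        rw [h4] at h3
        refine le_trans (le_of_eq ?_) h3
        congr 2
        refine Finset.expect_congr rfl fun x _ => ?_
        have h5 : ∀ l : List ((V →+ G) × (G → ℝ)),
            (l.map g).map (fun r => r.2 x) = l.map (fun r => r.2 x * r.2 (x + q.1 d)) := by
          intro l; simp [g, Function.comp_def]
        have h6 : (List.map (fun r => r.2 x) (g q' :: L.map g)).prod =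
            (List.map (fun r => r.2 x) (q' :: L)).prod *
              (List.map (fun r => r.2 (x + q.1 d)) (q' :: L)).prod := by
          rw [← List.prod_map_mul, ← List.map_cons, h5]
        rw [h6]
        simp only [hH]
        ring
      · intro r hr
        rw [← List.map_cons, List.mem_map] at hr
        obtain ⟨r, hr, rfl⟩ := hr
        have hr' := h r (List.mem_cons_of_mem _ hr)
        refine ⟨fun x d' => ?_, fun x => ?_⟩
        · change r.2 (x + r.1 d') * r.2 (x + r.1 d' + q.1 d) = r.2 x * r.2 (x + q.1 d)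
          rw [hr'.1, add_right_comm, hr'.1]
        · change |r.2 x * r.2 (x + q.1 d)| ≤ 1
          rw [abs_mul]
          exact mul_le_one₀ (hr'.2 _) (abs_nonneg _) (hr'.2 _)
    have h7 : |𝔼 x, ((q :: q' :: L).map (fun r => r.2 x)).prod * σ x| =
        |𝔼 x, q.2 x * H x| := by
      congr 1
      refine Finset.expect_congr rfl fun x _ => ?_
      simp only [hH, List.map_cons, List.prod_cons]
      ring
    rw [h7]
    calc |𝔼 x, q.2 x * H x| ^ (2 ^ (n + 1 + 1))
        = ((𝔼 x, q.2 x * H x) ^ 2) ^ (2 ^ (n + 1)) := by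
          rw [pow_succ 2 (n + 1), mul_comm, pow_mul, sq_abs]
      _ ≤ (𝔼 d : V, |𝔼 x, H x * H (x + q.1 d)|) ^ (2 ^ (n + 1)) := by
          apply pow_le_pow_left₀ (sq_nonneg _)
          refine h1.trans (Finset.expect_le_expect fun d _ => le_abs_self _)
      _ ≤ 𝔼 d : V, |𝔼 x, H x * H (x + q.1 d)| ^ (2 ^ (n + 1)) :=
          pow_expect_le _ (fun _ => abs_nonneg _) _
      _ ≤ 𝔼 d : V, cube ((q' :: L).map Prod.fst) (fun x => σ x * σ (x + q.1 d)) :=
          Finset.expect_le_expect fun d _ => h2 d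
      _ = cube ((q :: q' :: L).map Prod.fst) σ := rfl

end

end Vale.Agent.P336.H746
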