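import Vale.Agent.P336.R2.H746.Form

/-!
# Correlation of conjunctions of functions with restricted views with the explicit function
-/

namespace Vale.Agent.P336.H746

open Finset Polynomial
open scoped BigOperators

variable {p m : ℕ}

lemma pair_prod (s : Seed p m) (x : Arg p m) : pair s (∏ i, pol (x i)) = form s x := by
  have h1 : ∏ i, pol (x i) = ∑ j : Fin p → Fin m, C (∏ i, x i (j i)) * X ^ (∑ i, (j i : ℕ)) := by
    simp only [pol]
    rw [Finset.prod_univ_sum, Fintype.piFinset_univ]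
    refine Finset.sum_congr rfl fun j _ => ?_
    rw [Finset.prod_mul_distrib, ← Finset.prod_pow_eq_pow_sum, map_prod]
  simp only [pair, h1, finsetSum_coeff, coeff_C_mul, coeff_X_pow, form]
  simp only [Finset.mul_sum]
  rw [Finset.sum_comm]
  refine Finset.sum_congr rfl fun j _ => Finset.sum_congr rfl fun k _ => ?_
  by_cases h : ∑ i, (j i : ℕ) = k
  · simp [h]
  · have h' : ¬ ((k : ℕ) = ∑ i, (j i : ℕ)) := fun e => h e.symm
    simp [h, h']

lemma phase_finRange (s : Seed p m) (x : Arg p m) :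
    phase (List.finRange p) 1 s x = sgn (form s x) := by
  unfold phase
  rw [one_mul, ← pair_prod, ← List.prod_ofFn, List.ofFn_eq_map]

lemma abs_pow_le_cube' {G V : Type*} [AddCommGroup G] [Fintype G] [AddCommGroup V] [Fintype V]
    (L : List ((V →+ G) × (G → ℝ))) (hL : L ≠ []) (σ : G → ℝ)
    (h : ∀ r ∈ L, (∀ x d, r.2 (x + r.1 d) = r.2 x) ∧ ∀ x, |r.2 x| ≤ 1) :
    |𝔼 x, (L.map (fun r => r.2 x)).prod * σ x| ^ (2 ^ L.length) ≤ cube (L.map Prod.fst) σ := by
  obtain ⟨q, L, rfl⟩ := List.exists_cons_of_ne_nil hL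
  exact abs_pow_le_cube L.length L rfl q σ h

/-- Invariance under the translations of the `i`-th argument inside `A`. -/
def Inv (i : Fin p) (A : Finset (Fin m)) (F : Seed p m → Arg p m → ℝ) : Prop :=
  ∀ s x d, F s (x + shift i A d) = F s x

theorem expect_pow_le (hp : 0 < p) (hm : 0 < m) {J : Type*} [Fintype J]
    (F : J → Seed p m → Arg p m → ℝ) (hF : ∀ j s x, |F j s x| ≤ 1)
    (A : Fin p → Finset (Fin m)) (a : ℕ) (hA : ∀ i, a ≤ (A i).card) (c : J → Fin p)
    (hc : ∀ j, Inv (c j) (A (c j)) (F j)) :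
    (𝔼 s, |𝔼 x, (∏ j, F j s x) * sgn (form s x)|) ^ (2 ^ p) ≤ p * (1 / 2 : ℝ) ^ a := by
  classical
  have h0 : ∀ s : Seed p m, |𝔼 x, (∏ j, F j s x) * sgn (form s x)| ^ (2 ^ p) ≤
      cube ((((List.finRange p).map (fun i => (i, A i)))).map (fun q => shift q.1 q.2))
        (phase ((((List.finRange p).map (fun i => (i, A i)))).map Prod.fst) 1 s) := by
    intro s
    let Φ : Fin p → Arg p m → ℝ := fun i x => ∏ j ∈ univ.filter (fun j => c j = i), F j s x
    have h1 := abs_pow_le_cube' ((List.finRange p).map (fun i => (shift i (A i), Φ i)))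
      (by
        have : (List.finRange p).length ≠ 0 := by simp; omega
        intro h
        apply this
        simpa using h)
      (fun x => sgn (form s x)) ?_
    · have h2 : ∀ x, (((List.finRange p).map (fun i => (shift i (A i), Φ i))).map
          (fun r => r.2 x)).prod = ∏ j, F j s x := by
        intro x
        rw [List.map_map]
        have : (fun r : ((Fin m → ZMod 2) →+ Arg p m) × (Arg p m → ℝ) => r.2 x) ∘
            (fun i => (shift i (A i), Φ i)) = fun i => Φ i x := rfl
        rw [this, ← List.ofFn_eq_map, List.prod_ofFn]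
        exact Finset.prod_fiberwise _ _ _
      simp only [h2, List.length_map, List.length_finRange] at h1
      refine h1.trans (le_of_eq ?_)
      congr 1
      · simp [Function.comp_def]
      · funext x
        rw [← phase_finRange]
        congr 1
        simp [Function.comp_def]
    · intro r hr
      simp only [List.mem_map, List.mem_finRange, true_and] at hr
      obtain ⟨i, rfl⟩ := hr
      refine ⟨fun x d => ?_, fun x => ?_⟩
      · refine Finset.prod_congr rfl fun j hj => ?_
        obtain rfl : c j = i := (mem_filter.1 hj).2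
        exact hc j s x d
      · change |∏ j ∈ univ.filter (fun j => c j = i), F j s x| ≤ 1
        rw [Finset.abs_prod]
        exact Finset.prod_le_one (fun _ _ => abs_nonneg _) (fun j _ => hF j s x)
  have h1 := expect_cube_le (m := m) ((List.finRange p).map (fun i => (i, A i))) 1
    (by simpa [Function.comp_def] using List.nodup_finRange p)
    (by
      simp only [natDegree_one, List.length_map, List.length_finRange, zero_add]
      exact Nat.mul_lt_mul_of_pos_left (by omega) hp)
  calc (𝔼 s, |𝔼 x, (∏ j, F j s x) * sgn (form s x)|) ^ (2 ^ p)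
      ≤ 𝔼 s, |𝔼 x, (∏ j, F j s x) * sgn (form s x)| ^ (2 ^ p) :=
        pow_expect_le _ (fun _ => abs_nonneg _) _
    _ ≤ _ := Finset.expect_le_expect fun s _ => h0 s
    _ ≤ _ := h1
    _ = ∑ i : Fin p, (1 / 2 : ℝ) ^ (A i).card := by
        simp only [one_ne_zero, if_false, zero_add, List.map_map, Function.comp_def]
        rw [← List.ofFn_eq_map, List.sum_ofFn]
    _ ≤ ∑ _i : Fin p, (1 / 2 : ℝ) ^ a :=
        Finset.sum_le_sum fun i _ => pow_le_pow_of_le_one (by norm_num) (by norm_num) (hA i)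
    _ = p * (1 / 2 : ℝ) ^ a := by simp

theorem expect_le (hp : 0 < p) (hm : 0 < m) {J : Type*} [Fintype J]
    (F : J → Seed p m → Arg p m → ℝ) (hF : ∀ j s x, |F j s x| ≤ 1)
    (A : Fin p → Finset (Fin m)) (t : ℕ) (hA : ∀ i, 2 ^ p * t + p ≤ (A i).card) (c : J → Fin p)
    (hc : ∀ j, Inv (c j) (A (c j)) (F j)) :
    𝔼 s, |𝔼 x, (∏ j, F j s x) * sgn (form s x)| ≤ (1 / 2 : ℝ) ^ t := by
  have h1 := expect_pow_le hp hm F hF A _ hA c hc
  have h2 : (p : ℝ) * (1 / 2 : ℝ) ^ (2 ^ p * t + p) ≤ ((1 / 2 : ℝ) ^ t) ^ (2 ^ p) := by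
    have h3 : (p : ℝ) ≤ 2 ^ p := by
      have : p ≤ 2 ^ p := Nat.lt_two_pow_self.le
      exact_mod_cast this
    rw [pow_add, ← pow_mul, mul_comm (2 ^ p) t]
    have h4 : (2 : ℝ) ^ p * (1 / 2) ^ p = 1 := by rw [← mul_pow]; norm_num
    have h5 : (0 : ℝ) < (1 / 2) ^ (t * 2 ^ p) := by positivity
    have h6 : (0 : ℝ) < (1 / 2) ^ p := by positivity
    calc (p : ℝ) * ((1 / 2) ^ (t * 2 ^ p) * (1 / 2) ^ p)
        = (p * (1 / 2) ^ p) * (1 / 2) ^ (t * 2 ^ p) := by ring
      _ ≤ (2 ^ p * (1 / 2) ^ p) * (1 / 2) ^ (t * 2 ^ p) := by gcongr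
      _ = (1 / 2) ^ (t * 2 ^ p) := by rw [h4, one_mul]
  exact (pow_le_pow_iff_left₀ (Finset.expect_nonneg fun _ _ => abs_nonneg _) (by positivity)
    (by positivity)).1 (h1.trans h2)

/-- The dropping lemma. -/
theorem drop_le (hp : 0 < p) (hm : 0 < m) {N J : Type*} [Fintype N] [DecidableEq N] [Fintype J]
    (Γ : N → Seed p m → Arg p m → ℝ) (hΓ : ∀ n s x, Γ n s x = 0 ∨ Γ n s x = 1)
    (R : J → Seed p m → Arg p m → ℝ) (hR : ∀ j s x, |R j s x| ≤ 1) (t : ℕ)
    (h : ∀ n : N, ∃ A : Fin p → Finset (Fin m), (∀ i, 2 ^ p * t + p ≤ (A i).card) ∧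
      (∃ c : N → Fin p, ∀ n' ≠ n, Inv (c n') (A (c n')) (Γ n')) ∧
      ∃ c : J → Fin p, ∀ j, Inv (c j) (A (c j)) (R j)) :
    𝔼 s, |𝔼 x, (∏ n, Γ n s x) * (∏ j, R j s x) * sgn (form s x)| ≤
      (1 / 2 : ℝ) ^ (Fintype.card N) + (1 / 2 : ℝ) ^ t := by
  set χ : N → Seed p m → Arg p m → ℝ := fun n s x => 2 * Γ n s x - 1 with hχ
  have hχ1 : ∀ n s x, |χ n s x| ≤ 1 := by
    intro n s x
    rcases hΓ n s x with h | h <;> simp only [hχ, h] <;> norm_num
  have hexp : ∀ s x, (∏ n, Γ n s x) =
      ∑ T ∈ (univ : Finset N).powerset, (1 / 2 : ℝ) ^ (Fintype.card N) * ∏ n ∈ T, χ n s x := by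
    intro s x
    have h1 : ∀ n, Γ n s x = χ n s x * (1 / 2) + 1 / 2 := by intro n; simp only [hχ]; ring
    calc (∏ n, Γ n s x) = ∏ n, (χ n s x * (1 / 2) + 1 / 2) := by simp only [h1]
      _ = ∑ T ∈ (univ : Finset N).powerset, (∏ n ∈ T, χ n s x * (1 / 2)) *
            ∏ _n ∈ univ \ T, (1 / 2 : ℝ) := Finset.prod_add _ _ _
      _ = _ := by
        refine Finset.sum_congr rfl fun T _ => ?_
        rw [Finset.prod_mul_distrib, prod_const, prod_const, card_univ_sdiff]
        have h2 : T.card ≤ Fintype.card N := T.card_le_univ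
        have h3 : (1 / 2 : ℝ) ^ (Fintype.card N) = (1 / 2) ^ T.card *
            (1 / 2) ^ (Fintype.card N - T.card) := by
          rw [← pow_add]; congr 1; omega
        rw [h3]
        ring
  have hT : ∀ T ∈ (univ : Finset N).powerset,
      𝔼 s, |𝔼 x, (∏ n ∈ T, χ n s x) * (∏ j, R j s x) * sgn (form s x)| ≤
        (if T = univ then 1 else 0) + (1 / 2 : ℝ) ^ t := by
    intro T _
    by_cases hTu : T = univ
    · have h1 : 𝔼 s, |𝔼 x, (∏ n ∈ T, χ n s x) * (∏ j, R j s x) * sgn (form s x)| ≤ 1 := by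
        refine Finset.expect_le univ_nonempty fun s _ => ?_
        refine (Finset.abs_expect_le _ _).trans ?_
        refine Finset.expect_le univ_nonempty fun x _ => ?_
        rw [abs_mul, abs_mul, abs_sgn, mul_one, Finset.abs_prod, Finset.abs_prod]
        exact mul_le_one₀ (Finset.prod_le_one (fun _ _ => abs_nonneg _) (fun n _ => hχ1 n s x))
          (Finset.prod_nonneg fun _ _ => abs_nonneg _)
          (Finset.prod_le_one (fun _ _ => abs_nonneg _) (fun j _ => hR j s x))
      have h2 : (0 : ℝ) ≤ (1 / 2) ^ t := by positivity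
      simp only [hTu, if_true] at h1 ⊢
      linarith
    · obtain ⟨n, hn⟩ : ∃ n, n ∉ T := by
        by_contra hcon
        push Not at hcon
        exact hTu (by ext x; simp [hcon x])
      obtain ⟨A, hA, ⟨c, hc⟩, ⟨c', hc'⟩⟩ := h n
      have h1 := expect_le hp hm (J := N ⊕ J)
        (Sum.elim (fun n' s x => if n' ∈ T then χ n' s x else 1) R)
        (by
          rintro (n' | j) s x
          · simp only [Sum.elim_inl]
            split_ifs
            · exact hχ1 _ _ _
            · simp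
          · simpa using hR j s x)
        A t hA (Sum.elim c c')
        (by
          rintro (n' | j) s x d
          · simp only [Sum.elim_inl]
            split_ifs with hn'
            · have hne : n' ≠ n := fun e => hn (e ▸ hn')
              simp only [hχ]
              rw [hc n' hne s x d]
            · rfl
          · simpa using hc' j s x d)
      simp only [Fintype.prod_sum_type, Sum.elim_inl, Sum.elim_inr] at h1
      have h2 : ∀ (s : Seed p m) (x : Arg p m),
          (∏ n', if n' ∈ T then χ n' s x else 1) = ∏ n' ∈ T, χ n' s x := by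
        intro s x
        rw [Finset.prod_ite_mem, univ_inter]
      simp only [h2] at h1
      simp only [hTu, if_false, zero_add]
      exact h1
  have hfin : ∀ s : Seed p m, |𝔼 x, (∏ n, Γ n s x) * (∏ j, R j s x) * sgn (form s x)| ≤
      ∑ T ∈ (univ : Finset N).powerset, (1 / 2 : ℝ) ^ (Fintype.card N) *
        |𝔼 x, (∏ n ∈ T, χ n s x) * (∏ j, R j s x) * sgn (form s x)| := by
    intro s
    have h1 : 𝔼 x, (∏ n, Γ n s x) * (∏ j, R j s x) * sgn (form s x) =
        ∑ T ∈ (univ : Finset N).powerset, (1 / 2 : ℝ) ^ (Fintype.card N) *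
          𝔼 x, (∏ n ∈ T, χ n s x) * (∏ j, R j s x) * sgn (form s x) := by
      simp only [hexp, Finset.sum_mul, Finset.expect_sum_comm]
      refine Finset.sum_congr rfl fun T _ => ?_
      rw [Finset.mul_expect]
      refine Finset.expect_congr rfl fun x _ => ?_
      ring
    rw [h1]
    refine (Finset.abs_sum_le_sum_abs _ _).trans (Finset.sum_le_sum fun T _ => ?_)
    rw [abs_mul, abs_of_nonneg (by positivity : (0 : ℝ) ≤ (1 / 2) ^ (Fintype.card N))]
  calc 𝔼 s, |𝔼 x, (∏ n, Γ n s x) * (∏ j, R j s x) * sgn (form s x)|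
      ≤ 𝔼 s, ∑ T ∈ (univ : Finset N).powerset, (1 / 2 : ℝ) ^ (Fintype.card N) *
        |𝔼 x, (∏ n ∈ T, χ n s x) * (∏ j, R j s x) * sgn (form s x)| :=
        Finset.expect_le_expect fun s _ => hfin s
    _ = ∑ T ∈ (univ : Finset N).powerset, (1 / 2 : ℝ) ^ (Fintype.card N) *
        𝔼 s, |𝔼 x, (∏ n ∈ T, χ n s x) * (∏ j, R j s x) * sgn (form s x)| := by
        rw [Finset.expect_sum_comm]
        refine Finset.sum_congr rfl fun T _ => ?_
        rw [Finset.mul_expect]
    _ ≤ ∑ T ∈ (univ : Finset N).powerset, (1 / 2 : ℝ) ^ (Fintype.card N) *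
        ((if T = univ then 1 else 0) + (1 / 2 : ℝ) ^ t) :=
        Finset.sum_le_sum fun T hTm => mul_le_mul_of_nonneg_left (hT T hTm) (by positivity)
    _ = (1 / 2 : ℝ) ^ (Fintype.card N) + (1 / 2 : ℝ) ^ t := by
        simp only [mul_add, Finset.sum_add_distrib, mul_ite, mul_one, mul_zero, sum_const,
          card_powerset, card_univ, nsmul_eq_mul]
        rw [Finset.sum_ite_eq' _ _ _]
        simp only [mem_powerset, subset_univ, if_true, Nat.cast_pow, Nat.cast_ofNat]
        have : (2 : ℝ) ^ Fintype.card N * (1 / 2) ^ Fintype.card N = 1 := by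
          rw [← mul_pow]; norm_num
        rw [← mul_assoc, this, one_mul]

end Vale.Agent.P336.H746
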