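import Vale.Agent.P336.R2.H746.CylSpec
import Vale.Agent.P336.R2.H746.Gate

/-!
# P336: the form has small correlation with cylinder intersections
-/

namespace Vale.Agent.P336.Cyl

open Finset Polynomial Vale.Agent.P336.H746
open scoped BigOperators

variable {p r m ℓ : ℕ}

/-- The translations in the coordinates of `A`. -/
def dir (A : Finset (Fin m)) : (Fin m → ZMod 2) →+ (Fin m → ZMod 2) where
  toFun d := mask A d
  map_zero' := by ext j; simp [mask]
  map_add' d d' := by ext j; simp only [mask, Pi.add_apply]; split_ifs <;> simp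

lemma dir_apply (A : Finset (Fin m)) (d : Fin m → ZMod 2) : dir A d = mask A d := rfl

/-- The product of the `1 + x_v z ^ v y`. -/
noncomputable def gen (S : Finset (Fin m)) (x : Fin m → ZMod 2) : ((ZMod 2)[X])[X] :=
  ∏ v ∈ S, (1 + C (C (x v) * X ^ (v : ℕ)) * X)

/-- The sum of the `x_v z ^ v`. -/
noncomputable def lin (A : Finset (Fin m)) (x : Fin m → ZMod 2) : (ZMod 2)[X] :=
  ∑ v ∈ A, C (x v) * X ^ (v : ℕ)

lemma gen_congr {S : Finset (Fin m)} {x x' : Fin m → ZMod 2} (h : ∀ v ∈ S, x v = x' v) :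
    gen S x = gen S x' := Finset.prod_congr rfl fun v hv => by rw [h v hv]

lemma gen_eq (S : Finset (Fin m)) (x : Fin m → ZMod 2) :
    ∃ U, gen S x = 1 + C (lin S x) * X + X ^ 2 * U := by
  classical
  induction S using Finset.induction_on with
  | empty => exact ⟨0, by simp [gen, lin]⟩
  | insert a S ha ih =>
    obtain ⟨U, hU⟩ := ih
    have h1 : gen (insert a S) x = (1 + C (C (x a) * X ^ (a : ℕ)) * X) * gen S x :=
      Finset.prod_insert ha
    have h2 : lin (insert a S) x = C (x a) * X ^ (a : ℕ) + lin S x := Finset.sum_insert ha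
    generalize C (x a) * X ^ (a : ℕ) = α at h1 h2
    refine ⟨C α * C (lin S x) + U + C α * X * U, ?_⟩
    rw [h1, hU, h2, C_add]
    ring

lemma coeff_lin (A : Finset (Fin m)) (x : Fin m → ZMod 2) (v : Fin m) :
    (lin A x).coeff v = if v ∈ A then x v else 0 := by
  classical
  simp only [lin, finsetSum_coeff, coeff_C_mul, coeff_X_pow]
  have : ∀ w : Fin m, (x w * if (v : ℕ) = (w : ℕ) then 1 else 0) = if v = w then x w else 0 := by
    intro w
    by_cases h : v = w
    · simp [h]
    · have : ¬ (v : ℕ) = (w : ℕ) := fun e => h (Fin.ext e)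
      simp [h, this]
  simp only [this]
  rw [Finset.sum_ite_eq]

lemma lin_eq_zero {A : Finset (Fin m)} {x : Fin m → ZMod 2} (h : lin A x = 0) : mask A x = 0 := by
  ext v
  have := coeff_lin A x v
  rw [h, coeff_zero] at this
  simp [mask, ← this]

/-- The lowest power of `z` is split off. -/
lemma lin_window (A : Finset (Fin m)) (x : Fin m → ZMod 2) (o : ℕ) (hℓ : 0 < ℓ)
    (hA : ∀ v ∈ A, o ≤ (v : ℕ) ∧ (v : ℕ) < o + ℓ) :
    ∃ Q : (ZMod 2)[X], lin A x = X ^ o * Q ∧ Q.natDegree ≤ ℓ - 1 := by
  refine ⟨∑ v ∈ A, C (x v) * X ^ ((v : ℕ) - o), ?_, ?_⟩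
  · rw [lin, Finset.mul_sum]
    refine Finset.sum_congr rfl fun v hv => ?_
    have h1 := (hA v hv).1
    have h2 : (X : (ZMod 2)[X]) ^ (v : ℕ) = X ^ o * X ^ ((v : ℕ) - o) := by
      rw [← pow_add]
      congr 1
      omega
    rw [h2]
    ring
  · refine natDegree_sum_le_of_forall_le _ _ fun v hv => ?_
    refine (natDegree_C_mul_X_pow_le _ _).trans ?_
    have := hA v hv
    omega

/-- The pairing of `s`, extended periodically, with the coefficients of a polynomial. -/
noncomputable def pairM (M : ℕ) (s : Fin r → ZMod 2) (P : (ZMod 2)[X]) : ZMod 2 :=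
  ∑ d ∈ range M, P.coeff d * ∑ k : Fin r, if (k : ℕ) = d % r then s k else 0

lemma pairM_add (M : ℕ) (s : Fin r → ZMod 2) (P Q : (ZMod 2)[X]) :
    pairM M s (P + Q) = pairM M s P + pairM M s Q := by
  simp [pairM, add_mul, Finset.sum_add_distrib]

lemma pairM_sum (M : ℕ) (s : Fin r → ZMod 2) {ι : Type*} (t : Finset ι) (f : ι → (ZMod 2)[X]) :
    pairM M s (∑ i ∈ t, f i) = ∑ i ∈ t, pairM M s (f i) := by
  classical
  induction t using Finset.induction_on with
  | empty => simp [pairM]
  | insert a t ha ih => rw [Finset.sum_insert ha, Finset.sum_insert ha, pairM_add, ih]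

lemma pairM_monomial (M : ℕ) (s : Fin r → ZMod 2) (a : ZMod 2) (n : ℕ) (hn : n < M) :
    pairM M s (C a * X ^ n) = a * ∑ k : Fin r, if (k : ℕ) = n % r then s k else 0 := by
  rw [pairM, Finset.sum_eq_single n]
  · simp
  · intro d _ hd
    simp [coeff_X_pow, hd]
  · intro h
    exact absurd (mem_range.2 hn) h

lemma form_eq_pairM (M : ℕ) (hM : p * m < M) (s : Fin r → ZMod 2) (x : Fin m → ZMod 2) :
    form p s x = pairM M s ((gen univ x).coeff p) := by
  classical
  have h1 : (gen univ x).coeff p = ∑ T ∈ (univ : Finset (Fin m)).powersetCard p,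
      C (∏ v ∈ T, x v) * X ^ (∑ v ∈ T, (v : ℕ)) := by
    have h2 : gen univ x = ∑ T ∈ (univ : Finset (Fin m)).powerset,
        C (C (∏ v ∈ T, x v) * X ^ (∑ v ∈ T, (v : ℕ))) * X ^ T.card := by
      rw [gen, Finset.prod_one_add]
      refine Finset.sum_congr rfl fun T _ => ?_
      rw [Finset.prod_mul_distrib, prod_const, ← map_prod, Finset.prod_mul_distrib,
        ← map_prod, Finset.prod_pow_eq_pow_sum]
    rw [h2, finsetSum_coeff]
    simp only [coeff_C_mul, coeff_X_pow, mul_ite, mul_one, mul_zero]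
    rw [← Finset.sum_filter]
    refine Finset.sum_congr ?_ fun _ _ => rfl
    ext T
    simp only [mem_filter, mem_powerset, mem_powersetCard, subset_univ, true_and]
    exact eq_comm
  rw [h1, pairM_sum, form]
  refine Finset.sum_congr rfl fun T hT => ?_
  rw [pairM_monomial, mul_comm]
  refine lt_of_le_of_lt ?_ hM
  have hc := (mem_powersetCard.1 hT).2
  calc ∑ v ∈ T, (v : ℕ) ≤ ∑ _v ∈ T, m := Finset.sum_le_sum fun v _ => v.isLt.le
    _ = p * m := by rw [sum_const, smul_eq_mul, hc]

lemma expect_sgn_pairM (M α : ℕ) (Q : (ZMod 2)[X]) (hQ : Q.natDegree < r)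
    (hM : α + Q.natDegree < M) :
    𝔼 s : Fin r → ZMod 2, sgn (pairM M s (X ^ α * Q)) = if Q = 0 then 1 else 0 := by
  classical
  split_ifs with h
  · subst h
    simp [pairM, sgn_zero]
  · have hr : 0 < r := by omega
    set k0 := Q.natDegree with hk0
    set idx : Fin r := ⟨(α + k0) % r, Nat.mod_lt _ hr⟩ with hidx
    have hk : Q.coeff k0 = 1 := by
      have h1 : Q.coeff k0 ≠ 0 := by simpa [hk0] using h
      have : ∀ z : ZMod 2, z ≠ 0 → z = 1 := by decide
      exact this _ h1
    have h2 := expect_translate (fun s : Fin r → ZMod 2 => sgn (pairM M s (X ^ α * Q)))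
      (Pi.single idx 1)
    have h3 : ∀ s : Fin r → ZMod 2, pairM M (s + Pi.single idx 1) (X ^ α * Q) =
        pairM M s (X ^ α * Q) + 1 := by
      intro s
      have e1 : ∀ d, (∑ k : Fin r, if (k : ℕ) = d % r then (s + Pi.single idx 1 : Fin r → ZMod 2) k
          else 0) = (∑ k : Fin r, if (k : ℕ) = d % r then s k else 0) +
          if (α + k0) % r = d % r then 1 else 0 := by
        intro d
        have e2 : ∀ k : Fin r, (if (k : ℕ) = d % r then (s + Pi.single idx 1 : Fin r → ZMod 2) k
            else 0) = (if (k : ℕ) = d % r then s k else 0) +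
            if k = idx then (if (α + k0) % r = d % r then 1 else 0) else 0 := by
          intro k
          by_cases hki : k = idx
          · subst hki
            simp only [Pi.add_apply, Pi.single_eq_same, if_true]
            have : ((idx : Fin r) : ℕ) = (α + k0) % r := rfl
            rw [this]
            split_ifs <;> simp
          · simp [hki]
        simp only [e2, Finset.sum_add_distrib]
        congr 1
        rw [Finset.sum_ite_eq']
        simp
      simp only [pairM, e1, mul_add, Finset.sum_add_distrib]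
      congr 1
      rw [Finset.sum_eq_single (α + k0)]
      · rw [if_pos rfl, mul_one, add_comm α k0, coeff_X_pow_mul, hk]
      · intro d _ hd
        by_cases hc : (X ^ α * Q).coeff d = 0
        · rw [hc, zero_mul]
        · rw [if_neg, mul_zero]
          intro hmod
          rw [coeff_X_pow_mul'] at hc
          have hαd : α ≤ d := by
            by_contra hcon
            rw [if_neg hcon] at hc
            exact hc rfl
          rw [if_pos hαd] at hc
          have hdk : d - α ≤ k0 := le_natDegree_of_ne_zero hc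
          have hlt : d < α + k0 := by omega
          have hdiv : r ∣ (α + k0) - d := (Nat.modEq_iff_dvd' hlt.le).1 hmod.symm
          have := Nat.le_of_dvd (by omega) hdiv
          omega
      · intro hnot
        exact absurd (mem_range.2 hM) hnot
    simp only [h3, sgn_add, sgn_one, mul_neg, mul_one, Finset.expect_neg_distrib] at h2
    linarith

theorem expect_cube (p M : ℕ) (hℓ : 0 < ℓ) (L : List (ℕ × Finset (Fin m))) :
    ∀ (k α : ℕ) (Q : (ZMod 2)[X]) (D : (Fin m → ZMod 2) → ((ZMod 2)[X])[X])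
      (S : Finset (Fin m)),
      L.Pairwise (fun a b => Disjoint a.2 b.2) → (∀ a ∈ L, a.2 ⊆ S) →
      (∀ a ∈ L, ∀ v ∈ a.2, a.1 ≤ (v : ℕ) ∧ (v : ℕ) < a.1 + ℓ) →
      (∀ a ∈ L, ∀ x d, D (x + mask a.2 d) = D x) →
      (∀ x, ∃ U, D x = C (X ^ α * Q) * X ^ k + X ^ (k + 1) * U) →
      Q.natDegree + L.length * (ℓ - 1) < r →
      α + (L.map Prod.fst).sum + (Q.natDegree + L.length * (ℓ - 1)) < M → k + L.length = p →
      𝔼 s : Fin r → ZMod 2, cube (L.map (fun a => dir a.2))
        (fun x => sgn (pairM M s ((D x * gen S x).coeff p))) ≤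
        (if Q = 0 then 1 else 0) + (L.map (fun a => (1 / 2 : ℝ) ^ a.2.card)).sum := by
  classical
  induction L with
  | nil =>
    intro k α Q D S _ _ _ _ hD hr hM hk
    have h1 : ∀ (s : Fin r → ZMod 2) (x : Fin m → ZMod 2),
        sgn (pairM M s ((D x * gen S x).coeff p)) = sgn (pairM M s (X ^ α * Q)) := by
      intro s x
      congr 2
      obtain ⟨U, hU⟩ := hD x
      obtain ⟨W, hW⟩ := gen_eq S x
      have hkp : k = p := by simpa using hk
      subst hkp
      have e : D x * gen S x = C (X ^ α * Q) * X ^ k + X ^ (k + 1) *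
          (C (X ^ α * Q) * C (lin S x) + C (X ^ α * Q) * X * W + U * gen S x) := by
        rw [hU]
        conv_lhs => rw [add_mul]
        conv_lhs => lhs; rw [hW]
        ring
      rw [e, coeff_add, coeff_C_mul_X_pow, if_pos rfl]
      rw [mul_comm (X ^ (k + 1)), coeff_mul_X_pow', if_neg (by omega), add_zero]
    have h2 : ∀ s : Fin r → ZMod 2, cube (V := Fin m → ZMod 2)
        (([] : List (ℕ × Finset (Fin m))).map (fun a => dir a.2))
        (fun x => sgn (pairM M s ((D x * gen S x).coeff p))) =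
        sgn (pairM M s (X ^ α * Q)) := by
      intro s
      simp only [List.map_nil, cube, h1]
      exact Fintype.expect_const _
    simp only [h2]
    rw [expect_sgn_pairM M α Q (by simpa using hr) (by simpa using hM)]
    simp
  | cons a L ih =>
    intro k α Q D S hdis hsub hwin hinv hD hr hM hk
    obtain ⟨o, A⟩ := a
    have hAS : A ⊆ S := hsub (o, A) (by simp)
    have hdisA : ∀ b ∈ L, Disjoint A b.2 := (List.pairwise_cons.1 hdis).1
    have hd' := (List.pairwise_cons.1 hdis).2
    have hinvA : ∀ x d, D (x + mask A d) = D x := hinv (o, A) (by simp)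
    have hmask : ∀ (B : Finset (Fin m)) (x d : Fin m → ZMod 2), Disjoint A B →
        ∀ v ∈ B, (x + mask A d) v = x v := by
      intro B x d hAB v hv
      have : v ∉ A := fun h => (Finset.disjoint_left.1 hAB h) hv
      simp [mask, this]
    have hsd : Disjoint A (S \ A) := Finset.disjoint_sdiff
    have hgen : ∀ x, gen S x = gen A x * gen (S \ A) x := by
      intro x
      rw [gen, gen, gen, ← Finset.prod_union hsd, Finset.union_sdiff_of_subset hAS]
    let D' : (Fin m → ZMod 2) → (Fin m → ZMod 2) → ((ZMod 2)[X])[X] := fun d x =>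
      D x * (gen A x + gen A (x + mask A d))
    have h1 : ∀ s : Fin r → ZMod 2, cube (((o, A) :: L).map (fun a => dir a.2))
        (fun x => sgn (pairM M s ((D x * gen S x).coeff p))) =
        𝔼 d : Fin m → ZMod 2, cube (L.map (fun a => dir a.2))
          (fun x => sgn (pairM M s ((D' d x * gen (S \ A) x).coeff p))) := by
      intro s
      simp only [List.map_cons, cube]
      refine Finset.expect_congr rfl fun d _ => ?_
      congr 1
      funext x
      rw [← sgn_add, ← pairM_add, ← coeff_add, dir_apply]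
      congr 3
      rw [hinvA, hgen x, hgen (x + mask A d), gen_congr (hmask (S \ A) x d hsd)]
      ring
    simp only [h1]
    rw [Finset.expect_comm]
    have h2 : ∀ d : Fin m → ZMod 2,
        𝔼 s : Fin r → ZMod 2, cube (L.map (fun a => dir a.2))
          (fun x => sgn (pairM M s ((D' d x * gen (S \ A) x).coeff p))) ≤
        (if Q = 0 then 1 else 0) + (if mask A d = 0 then (1 : ℝ) else 0) +
          (L.map (fun a => (1 / 2 : ℝ) ^ a.2.card)).sum := by
      intro d
      obtain ⟨QA, hQA, hQAd⟩ := lin_window A d o hℓ (hwin (o, A) (by simp))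
      have hdeg : (Q * QA).natDegree ≤ Q.natDegree + (ℓ - 1) :=
        natDegree_mul_le.trans (add_le_add_right hQAd _)
      have hlen : ((o, A) :: L).length * (ℓ - 1) = L.length * (ℓ - 1) + (ℓ - 1) := by
        simp [add_mul]
      have hsum : (((o, A) :: L).map Prod.fst).sum = o + (L.map Prod.fst).sum := by simp
      rw [hlen] at hr hM
      rw [hsum] at hM
      refine (ih (k + 1) (α + o) (Q * QA) (D' d) (S \ A) hd' ?_ ?_ ?_ ?_ (by omega) (by omega)
        ?_).trans ?_
      · intro b hb v hv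
        refine mem_sdiff.2 ⟨hsub b (List.mem_cons_of_mem _ hb) hv, fun hvA => ?_⟩
        exact (Finset.disjoint_left.1 (hdisA b hb) hvA) hv
      · exact fun b hb => hwin b (List.mem_cons_of_mem _ hb)
      · intro b hb x d'
        have hb1 : ∀ v ∈ A, (x + mask b.2 d') v = x v := by
          intro v hv
          have : v ∉ b.2 := fun h => (Finset.disjoint_left.1 (hdisA b hb) hv) h
          simp [mask, this]
        have hb2 : ∀ v ∈ A, (x + mask b.2 d' + mask A d) v = (x + mask A d) v := by
          intro v hv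
          have : v ∉ b.2 := fun h => (Finset.disjoint_left.1 (hdisA b hb) hv) h
          simp [mask, this]
        simp only [D']
        rw [hinv b (List.mem_cons_of_mem _ hb), gen_congr hb1, gen_congr hb2]
      · intro x
        obtain ⟨U, hU⟩ := hD x
        obtain ⟨W1, hW1⟩ := gen_eq A x
        obtain ⟨W2, hW2⟩ := gen_eq A (x + mask A d)
        have hl : lin A (x + mask A d) = lin A x + lin A d := by
          simp only [lin]
          rw [← Finset.sum_add_distrib]
          refine Finset.sum_congr rfl fun v hv => ?_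
          simp [mask, hv, add_mul]
        have h2z : ∀ P : ((ZMod 2)[X])[X], P + P = 0 := fun P => CharTwo.add_self_eq_zero P
        have e1 : gen A x + gen A (x + mask A d) = C (lin A d) * X + X ^ 2 * (W1 + W2) := by
          rw [hW1, hW2, hl, C_add]
          have : (1 + C (lin A x) * X + X ^ 2 * W1 + (1 + (C (lin A x) + C (lin A d)) * X +
              X ^ 2 * W2) : ((ZMod 2)[X])[X]) = (1 + 1) + (C (lin A x) * X + C (lin A x) * X) +
              (C (lin A d) * X + X ^ 2 * (W1 + W2)) := by ring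
          rw [this, h2z, h2z, zero_add, zero_add]
        refine ⟨C (X ^ α * Q) * (W1 + W2) + U * (C (lin A d) + X * (W1 + W2)), ?_⟩
        simp only [D']
        rw [e1, hU, hQA]
        have e2 : (C (X ^ (α + o) * (Q * QA)) : ((ZMod 2)[X])[X]) =
            C (X ^ α * Q) * C (X ^ o * QA) := by
          rw [← C_mul]
          congr 1
          ring
        rw [e2]
        ring
      · simp only [List.length_cons] at hk
        omega
      · have : (if Q * QA = 0 then (1 : ℝ) else 0) ≤
            (if Q = 0 then 1 else 0) + (if mask A d = 0 then (1 : ℝ) else 0) := by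
          by_cases hQ0 : Q = 0
          · simp only [hQ0, zero_mul, if_true]
            split_ifs <;> norm_num
          · by_cases hm : mask A d = 0
            · simp only [hm, if_true]
              split_ifs <;> norm_num
            · have hQA0 : QA ≠ 0 := by
                rintro rfl
                rw [mul_zero] at hQA
                exact hm (lin_eq_zero hQA)
              have : Q * QA ≠ 0 := mul_ne_zero hQ0 hQA0
              simp [this, hQ0, hm]
        linarith
    refine (Finset.expect_le_expect fun d _ => h2 d).trans ?_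
    rw [Finset.expect_add_distrib, Finset.expect_add_distrib, expect_mask, Fintype.expect_const,
      Fintype.expect_const]
    simp only [List.map_cons, List.sum_cons]
    linarith

/-- Products of functions, each of which does not depend on the variables in one of the sets. -/
theorem corr_pow_le (hp : 0 < p) (hℓ : 0 < ℓ) (hr : r = p * ℓ) {J : Type*} [Fintype J]
    (F : J → (Fin r → ZMod 2) → (Fin m → ZMod 2) → ℝ) (hF : ∀ j s x, |F j s x| ≤ 1)
    (off : Fin p → ℕ) (A : Fin p → Finset (Fin m))
    (hwin : ∀ i, ∀ v ∈ A i, off i ≤ (v : ℕ) ∧ (v : ℕ) < off i + ℓ)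
    (hdis : ∀ i i', i ≠ i' → Disjoint (A i) (A i')) (a : ℕ) (hA : ∀ i, a ≤ (A i).card)
    (c : J → Fin p) (hc : ∀ j s x d, F j s (x + mask (A (c j)) d) = F j s x) :
    (𝔼 s : Fin r → ZMod 2, |𝔼 x, (∏ j, F j s x) * sgn (form p s x)|) ^ (2 ^ p) ≤
      p * (1 / 2 : ℝ) ^ a := by
  classical
  set M : ℕ := p * m + (∑ i, off i) + r + 1 with hM
  set L : List (ℕ × Finset (Fin m)) := (List.finRange p).map fun i => (off i, A i) with hL
  have hLlen : L.length = p := by simp [hL]
  have h0 : ∀ s : Fin r → ZMod 2, |𝔼 x, (∏ j, F j s x) * sgn (form p s x)| ^ (2 ^ p) ≤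
      cube (L.map (fun q => dir q.2))
        (fun x => sgn (pairM M s (((1 : ((ZMod 2)[X])[X]) * gen univ x).coeff p))) := by
    intro s
    let Φ : Fin p → (Fin m → ZMod 2) → ℝ := fun i x =>
      ∏ j ∈ univ.filter (fun j => c j = i), F j s x
    have h1 := abs_pow_le_cube' ((List.finRange p).map (fun i => (dir (A i), Φ i)))
      (by
        have : (List.finRange p).length ≠ 0 := by simp; omega
        intro h
        apply this
        simpa using h)
      (fun x => sgn (form p s x)) ?_
    · have h2 : ∀ x, (((List.finRange p).map (fun i => (dir (A i), Φ i))).map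
          (fun r => r.2 x)).prod = ∏ j, F j s x := by
        intro x
        rw [List.map_map]
        have : (fun r : ((Fin m → ZMod 2) →+ (Fin m → ZMod 2)) × ((Fin m → ZMod 2) → ℝ) =>
            r.2 x) ∘ (fun i => (dir (A i), Φ i)) = fun i => Φ i x := rfl
        rw [this, ← List.ofFn_eq_map, List.prod_ofFn]
        exact Finset.prod_fiberwise _ _ _
      simp only [h2, List.length_map, List.length_finRange] at h1
      refine h1.trans (le_of_eq ?_)
      congr 1
      · simp [hL, Function.comp_def]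
      · funext x
        rw [one_mul, form_eq_pairM M (by omega)]
    · intro q hq
      simp only [List.mem_map, List.mem_finRange, true_and] at hq
      obtain ⟨i, rfl⟩ := hq
      refine ⟨fun x d => ?_, fun x => ?_⟩
      · refine Finset.prod_congr rfl fun j hj => ?_
        obtain rfl : c j = i := (mem_filter.1 hj).2
        exact hc j s x d
      · change |∏ j ∈ univ.filter (fun j => c j = i), F j s x| ≤ 1
        rw [Finset.abs_prod]
        exact Finset.prod_le_one (fun _ _ => abs_nonneg _) (fun j _ => hF j s x)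
  have hsum : (L.map Prod.fst).sum = ∑ i, off i := by
    rw [hL, List.map_map]
    have : (Prod.fst ∘ fun i => (off i, A i)) = fun i => off i := rfl
    rw [this, ← List.ofFn_eq_map, List.sum_ofFn]
  have hpl : p * (ℓ - 1) < r := by
    rw [hr]
    exact Nat.mul_lt_mul_of_pos_left (by omega) hp
  have h1 := expect_cube (r := r) (ℓ := ℓ) p M hℓ L 0 0 1 (fun _ => 1) univ
    (by
      rw [hL, List.pairwise_map]
      exact (List.nodup_finRange p).imp fun {i i'} h => hdis i i' h)
    (fun _ _ => subset_univ _)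
    (by
      intro q hq
      simp only [hL, List.mem_map, List.mem_finRange, true_and] at hq
      obtain ⟨i, rfl⟩ := hq
      exact hwin i)
    (fun _ _ _ _ => rfl) (fun x => ⟨0, by simp⟩)
    (by rw [natDegree_one, hLlen, zero_add]; exact hpl)
    (by rw [natDegree_one, hLlen, hsum]; omega)
    (by rw [hLlen, zero_add])
  calc (𝔼 s : Fin r → ZMod 2, |𝔼 x, (∏ j, F j s x) * sgn (form p s x)|) ^ (2 ^ p)
      ≤ 𝔼 s : Fin r → ZMod 2, |𝔼 x, (∏ j, F j s x) * sgn (form p s x)| ^ (2 ^ p) :=
        pow_expect_le _ (fun _ => abs_nonneg _) _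
    _ ≤ _ := Finset.expect_le_expect fun s _ => h0 s
    _ ≤ _ := h1
    _ = ∑ i : Fin p, (1 / 2 : ℝ) ^ (A i).card := by
        simp only [one_ne_zero, if_false, zero_add, hL, List.map_map, Function.comp_def]
        rw [← List.ofFn_eq_map, List.sum_ofFn]
    _ ≤ ∑ _i : Fin p, (1 / 2 : ℝ) ^ a :=
        Finset.sum_le_sum fun i _ => pow_le_pow_of_le_one (by norm_num) (by norm_num) (hA i)
    _ = p * (1 / 2 : ℝ) ^ a := by simp

theorem corr_le (hp : 0 < p) (hℓ : 0 < ℓ) (hr : r = p * ℓ) {J : Type*} [Fintype J]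
    (F : J → (Fin r → ZMod 2) → (Fin m → ZMod 2) → ℝ) (hF : ∀ j s x, |F j s x| ≤ 1)
    (off : Fin p → ℕ) (A : Fin p → Finset (Fin m))
    (hwin : ∀ i, ∀ v ∈ A i, off i ≤ (v : ℕ) ∧ (v : ℕ) < off i + ℓ)
    (hdis : ∀ i i', i ≠ i' → Disjoint (A i) (A i')) (t : ℕ)
    (hA : ∀ i, 2 ^ p * t + p ≤ (A i).card)
    (c : J → Fin p) (hc : ∀ j s x d, F j s (x + mask (A (c j)) d) = F j s x) :
    𝔼 s : Fin r → ZMod 2, |𝔼 x, (∏ j, F j s x) * sgn (form p s x)| ≤ (1 / 2 : ℝ) ^ t := by
  have h1 := corr_pow_le hp hℓ hr F hF off A hwin hdis _ hA c hc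
  have h2 : (p : ℝ) * (1 / 2 : ℝ) ^ (2 ^ p * t + p) ≤ ((1 / 2 : ℝ) ^ t) ^ (2 ^ p) := by
    have h3 : (p : ℝ) ≤ 2 ^ p := by
      have : p ≤ 2 ^ p := Nat.lt_two_pow_self.le
      exact_mod_cast this
    rw [pow_add, ← pow_mul, mul_comm (2 ^ p) t]
    have h4 : (2 : ℝ) ^ p * (1 / 2) ^ p = 1 := by rw [← mul_pow]; norm_num
    have h5 : (0 : ℝ) < (1 / 2) ^ (t * 2 ^ p) := by positivity
    have h6 : (0 : ℝ) < (1 / 2) ^ p := by positivity
    calc (p : ℝ) * ((1 / 2) ^ (t * 2 ^ p) * (1 / 2) ^ p)
        = (p * (1 / 2) ^ p) * (1 / 2) ^ (t * 2 ^ p) := by ring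
      _ ≤ (2 ^ p * (1 / 2) ^ p) * (1 / 2) ^ (t * 2 ^ p) := by gcongr
      _ = (1 / 2) ^ (t * 2 ^ p) := by rw [h4, one_mul]
  exact (pow_le_pow_iff_left₀ (Finset.expect_nonneg fun _ _ => abs_nonneg _) (by positivity)
    (by positivity)).1 (h1.trans h2)

/-- The lower bound from the correlations: covers of the points where the form is `b` by gates. -/
theorem cover_le (hp : 0 < p) (hℓ : 0 < ℓ) (hr : r = p * ℓ) (hm : r ≤ m) (t : ℕ)
    (ht : 2 ^ p * (t + 3) + p ≤ ℓ) {M : ℕ} (J : Fin M → Type) [∀ j, Fintype (J j)]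
    (β : (j : Fin M) → J j → (Fin r → ZMod 2) → (Fin m → ZMod 2) → Prop) (b : ZMod 2)
    (hβ : ∀ s x, (∃ j, ∀ i, β j i s x) ↔ form p s x = b)
    (hgate : ∀ j, ∃ (off : Fin p → ℕ) (A : Fin p → Finset (Fin m)),
      (∀ i, ∀ v ∈ A i, off i ≤ (v : ℕ) ∧ (v : ℕ) < off i + ℓ) ∧
      (∀ i i', i ≠ i' → Disjoint (A i) (A i')) ∧ (∀ i, 2 ^ p * (t + 3) + p ≤ (A i).card) ∧
      ∀ i, ∃ c : Fin p, ∀ s x d, β j i s (x + mask (A c) d) ↔ β j i s x) :
    2 ^ t ≤ M := by
  classical
  set σ : (Fin r → ZMod 2) → (Fin m → ZMod 2) → ℝ := fun s x => sgn (form p s x) with hσ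
  let ind : (j : Fin M) → J j → (Fin r → ZMod 2) → (Fin m → ZMod 2) → ℝ := fun j i s x =>
    if β j i s x then 1 else 0
  have hind1 : ∀ j i s x, |ind j i s x| ≤ 1 := by
    intro j i s x
    simp only [ind]
    split_ifs <;> simp
  -- the form is balanced
  have hbal : 𝔼 s, |𝔼 x, σ s x| ≤ 1 / 2 := by
    have h2 := corr_le (m := m) hp hℓ hr (J := Fin 0) (fun _ _ _ => 1) (by simp)
      (fun i => (i : ℕ) * ℓ)
      (fun i => univ.filter fun v : Fin m => (i : ℕ) * ℓ ≤ (v : ℕ) ∧ (v : ℕ) < (i : ℕ) * ℓ + ℓ)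
      (fun i v hv => (mem_filter.1 hv).2)
      (by
        intro i i' hne
        rw [Finset.disjoint_left]
        intro v hv hv'
        have h3 := (mem_filter.1 hv).2
        have h4 := (mem_filter.1 hv').2
        apply hne
        have e1 : (v : ℕ) / ℓ = i := Nat.div_eq_of_lt_le h3.1 (by rw [add_mul, one_mul]; exact h3.2)
        have e2 : (v : ℕ) / ℓ = i' := Nat.div_eq_of_lt_le h4.1
          (by rw [add_mul, one_mul]; exact h4.2)
        exact Fin.ext (e1.symm.trans e2))
      (t + 3)
      (by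
        intro i
        refine ht.trans ?_
        have hi : (i : ℕ) * ℓ + ℓ ≤ m := by
          have : ((i : ℕ) + 1) * ℓ ≤ p * ℓ := Nat.mul_le_mul_right _ i.isLt
          rw [add_mul, one_mul] at this
          omega
        have hc : (Finset.univ : Finset (Fin ℓ)).card ≤ (univ.filter fun v : Fin m =>
            (i : ℕ) * ℓ ≤ (v : ℕ) ∧ (v : ℕ) < (i : ℕ) * ℓ + ℓ).card := by
          refine Finset.card_le_card_of_injOn (fun u : Fin ℓ => (⟨(i : ℕ) * ℓ + u, by
            have := u.isLt; omega⟩ : Fin m)) (fun u _ => ?_) ?_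
          · simp
          · intro u _ u' _ h
            simpa [Fin.ext_iff] using h
        simpa using hc)
      (fun j => j.elim0) (fun j => j.elim0)
    simp only [Finset.univ_eq_empty, Finset.prod_empty, one_mul] at h2
    refine h2.trans ?_
    calc (1 / 2 : ℝ) ^ (t + 3) ≤ (1 / 2) ^ 1 :=
          pow_le_pow_of_le_one (by norm_num) (by norm_num) (by omega)
      _ = 1 / 2 := by norm_num
  -- the gates
  have hg : ∀ j, 𝔼 s, 𝔼 x, (∏ i, ind j i s x) ≤ (1 / 2 : ℝ) ^ (t + 3) := by
    intro j
    obtain ⟨off, A, hwin, hdis, hcard, hinv⟩ := hgate j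
    choose c hc using hinv
    have h4 := corr_le hp hℓ hr (ind j) (hind1 j) off A hwin hdis (t + 3) hcard c
      (by
        intro i s x d
        simp only [ind]
        exact if_congr (hc i s x d) rfl rfl)
    refine le_trans (Finset.expect_le_expect fun s _ => ?_) h4
    have h1 : ∀ x, (∏ i, ind j i s x) * sgn (form p s x) = sgn b * ∏ i, ind j i s x := by
      intro x
      by_cases h : ∀ i, β j i s x
      · rw [(hβ s x).1 ⟨j, h⟩]
        ring
      · push Not at h
        obtain ⟨i, hi⟩ := h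
        have : ∏ i, ind j i s x = 0 :=
          Finset.prod_eq_zero (mem_univ i) (by simp [ind, hi])
        rw [this]; ring
    simp only [h1]
    rw [← Finset.mul_expect, abs_mul, abs_sgn, one_mul]
    exact le_abs_self _
  -- the accepted inputs
  have hcov : ∀ s x, (if form p s x = b then (1 : ℝ) else 0) ≤ ∑ j, ∏ i, ind j i s x := by
    intro s x
    have hnn : ∀ j, 0 ≤ ∏ i, ind j i s x := fun j =>
      Finset.prod_nonneg fun i _ => by simp only [ind]; split_ifs <;> simp
    split_ifs with h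
    · obtain ⟨j, hj⟩ := (hβ s x).2 h
      calc (1 : ℝ) = ∏ i, ind j i s x :=
            (Finset.prod_eq_one fun i _ => by simp [ind, hj i]).symm
        _ ≤ _ := Finset.single_le_sum (f := fun j => ∏ i, ind j i s x)
            (fun j _ => hnn j) (mem_univ j)
    · exact Finset.sum_nonneg fun j _ => hnn j
  have hval : ∀ s x, (if form p s x = b then (1 : ℝ) else 0) = (1 + sgn b * σ s x) / 2 := by
    intro s x
    simp only [hσ]
    have hd : ∀ z : ZMod 2, z = 0 ∨ z = 1 := by decide
    rcases hd b with rfl | rfl <;> rcases hd (form p s x) with h | h <;> rw [h] <;>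
      simp [sgn]
  have h2 : (1 / 4 : ℝ) ≤ 𝔼 s : Fin r → ZMod 2, 𝔼 x : Fin m → ZMod 2,
      (if form p s x = b then (1 : ℝ) else 0) := by
    have h3 : ∀ s : Fin r → ZMod 2, (1 - |𝔼 x, σ s x|) / 2 ≤
        𝔼 x : Fin m → ZMod 2, (if form p s x = b then (1 : ℝ) else 0) := by
      intro s
      simp only [hval]
      have h4 : 𝔼 x : Fin m → ZMod 2, (1 + sgn b * σ s x) / 2 =
          (1 + sgn b * 𝔼 x, σ s x) / 2 := by
        rw [← Finset.expect_div, Finset.expect_add_distrib, Fintype.expect_const,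
          ← Finset.mul_expect]
      rw [h4]
      have h5 : -|𝔼 x, σ s x| ≤ sgn b * 𝔼 x, σ s x := by
        have := neg_abs_le (sgn b * 𝔼 x, σ s x)
        rwa [abs_mul, abs_sgn, one_mul] at this
      linarith
    refine le_trans ?_ (Finset.expect_le_expect fun s _ => h3 s)
    rw [← Finset.expect_div, Finset.expect_sub_distrib, Fintype.expect_const]
    linarith
  have h3 : 𝔼 s : Fin r → ZMod 2, 𝔼 x : Fin m → ZMod 2,
      (if form p s x = b then (1 : ℝ) else 0) ≤ M * (1 / 2 : ℝ) ^ (t + 3) := by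
    calc 𝔼 s : Fin r → ZMod 2, 𝔼 x : Fin m → ZMod 2, (if form p s x = b then (1 : ℝ) else 0)
        ≤ 𝔼 s : Fin r → ZMod 2, 𝔼 x : Fin m → ZMod 2, ∑ j, ∏ i, ind j i s x :=
          Finset.expect_le_expect fun s _ => Finset.expect_le_expect fun x _ => hcov s x
      _ = ∑ j, 𝔼 s : Fin r → ZMod 2, 𝔼 x : Fin m → ZMod 2, ∏ i, ind j i s x := by
          simp only [Finset.expect_sum_comm]
      _ ≤ ∑ _j : Fin M, (1 / 2 : ℝ) ^ (t + 3) := Finset.sum_le_sum fun j _ => hg j
      _ = M * (1 / 2 : ℝ) ^ (t + 3) := by simp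
  have h4 : (2 : ℝ) ^ t * (1 / 2) ^ t = 1 := by rw [← mul_pow]; norm_num
  have h5 : (2 : ℝ) ^ t ≤ M := by
    have h6 : (1 / 4 : ℝ) ≤ M * (1 / 2 : ℝ) ^ (t + 3) := h2.trans h3
    have h7 : (2 : ℝ) ^ t * (1 / 4) ≤ 2 ^ t * (M * (1 / 2 : ℝ) ^ (t + 3)) :=
      mul_le_mul_of_nonneg_left h6 (by positivity)
    have h8 : (2 : ℝ) ^ t * (M * (1 / 2 : ℝ) ^ (t + 3)) = M / 8 * (2 ^ t * (1 / 2) ^ t) := by
      rw [pow_add]; ring
    rw [h8, h4] at h7
    have hM0 : (0 : ℝ) ≤ M := by positivity
    linarith
  exact_mod_cast h5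

end Vale.Agent.P336.Cyl
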