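import Vale.Agent.P336.R2.H746.CylCore
import Vale.Agent.P336.R2.H597.CylNum
import Vale.Agent.P336.R2.H887.CylP
import Vale.Agent.P336.R2.H184.CylWord

/-!
# P336: gates which are cylinder intersections, for the slices of the language
-/

namespace Vale.Agent.P336.Cyl

open Finset Vale.Agent.P336.H746

/-- The position of a bit of `x` in the word. -/
def dpos {N b : ℕ} (v : Fin (N - b)) : Fin N := ⟨b + v, by have := v.isLt; omega⟩

theorem dpos_injective {N b : ℕ} : Function.Injective (dpos (N := N) (b := b)) := by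
  intro v w h
  have h1 : b + (v : ℕ) = b + (w : ℕ) := congrArg Fin.val h
  exact Fin.ext (by omega)

theorem word_mask {N q p ρ r : ℕ} (s : Fin r → ZMod 2) (x d : Fin (N - (2 * q + r)) → ZMod 2)
    (A : Finset (Fin (N - (2 * q + r)))) (t : Fin N) (ht : ∀ v ∈ A, t ≠ dpos v) :
    word N q p ρ r s (x + mask A d) t = word N q p ρ r s x t := by
  unfold word
  split_ifs with h1 h2 h3 h4
  · rfl
  · rfl
  · rfl
  · have h5 : (⟨(t : ℕ) - (2 * q + r), h4⟩ : Fin (N - (2 * q + r))) ∉ A := by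
      intro h6
      refine ht _ h6 (Fin.ext ?_)
      show (t : ℕ) = 2 * q + r + ((t : ℕ) - (2 * q + r))
      omega
    simp [mask, h5]
  · rfl

theorem exists_window {m ℓ a N : ℕ} (hℓ : 0 < ℓ) (D : Finset (Fin m)) (hmN : m ≤ N)
    (h : (N / ℓ + 1) * a ≤ D.card) :
    ∃ o, a ≤ (D.filter fun v : Fin m => o ≤ (v : ℕ) ∧ (v : ℕ) < o + ℓ).card := by
  classical
  obtain ⟨u, -, hu⟩ := Finset.exists_le_card_fiber_of_mul_le_card_of_maps_to
    (s := D) (t := range (N / ℓ + 1)) (f := fun v : Fin m => (v : ℕ) / ℓ) (n := a)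
    (fun v _ => by
      rw [mem_range, Nat.lt_succ_iff]
      exact Nat.div_le_div_right (v.isLt.le.trans hmN))
    ⟨0, mem_range.2 (Nat.succ_pos _)⟩ (by rw [card_range]; exact h)
  refine ⟨u * ℓ, hu.trans (Finset.card_le_card fun v hv => ?_)⟩
  obtain ⟨h1, h2⟩ := mem_filter.1 hv
  refine mem_filter.2 ⟨h1, ?_⟩
  subst h2
  refine ⟨Nat.div_mul_le_self _ _, ?_⟩
  have := Nat.lt_div_mul_add (a := (v : ℕ)) hℓ
  exact this

theorem card_data_ge {N b : ℕ} (A : Finset (Fin N)) :
    A.card - b ≤ (univ.filter fun v : Fin (N - b) => dpos v ∈ A).card := by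
  classical
  have h1 : A ⊆ (univ.filter fun t : Fin N => (t : ℕ) < b) ∪
      (univ.filter fun v : Fin (N - b) => dpos v ∈ A).image dpos := by
    intro t ht
    rw [mem_union]
    by_cases h : (t : ℕ) < b
    · exact Or.inl (mem_filter.2 ⟨mem_univ _, h⟩)
    · right
      have h2 : (t : ℕ) - b < N - b := by have := t.isLt; omega
      have h3 : dpos ⟨(t : ℕ) - b, h2⟩ = t := Fin.ext (by
        show b + ((t : ℕ) - b) = t
        omega)
      exact mem_image.2 ⟨⟨(t : ℕ) - b, h2⟩, mem_filter.2 ⟨mem_univ _, by rw [h3]; exact ht⟩, h3⟩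
  have h2 : (univ.filter fun t : Fin N => (t : ℕ) < b).card ≤ b := by
    refine (Finset.card_le_card_of_injOn (t := range b) (fun t : Fin N => (t : ℕ))
      (fun t ht => ?_) (fun t _ t' _ h => Fin.ext h)).trans (by simp)
    simpa using ht
  have h3 := (Finset.card_le_card h1).trans (Finset.card_union_le _ _)
  have h4 := Finset.card_image_le (s := univ.filter fun v : Fin (N - b) => dpos v ∈ A) (f := dpos)
  omega

/-- **Cylinder gates.** -/
theorem main :
    ∃ L : Set (List Bool), InP L ∧ ∃ K : ℕ, ∀ N p S t : ℕ, 1 ≤ N → 2 ≤ p → 1 ≤ t →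
      K * p * 2 ^ p * N * t ≤ S ^ 2 → p * S ≤ N → ∀ C : AnyCircuit N,
      (∀ j, C.Cylinder p S j) →
      ((∀ x, C.Accepts x ↔ slice L N x = true) ∨ (∀ x, C.Accepts x ↔ slice L N x = false)) →
      2 ^ t ≤ C.middle := by
  classical
  obtain ⟨K, hK⟩ := Vale.Agent.P336.R2.H597.numerics
  refine ⟨lang, inP_lang, K, fun N p S t hN hp ht hKt hpS C hC hf => ?_⟩
  obtain ⟨ρ, ℓ, r, a, hpq, hρq, hℓ, hr, hℓ0, hrN, hta, haℓ, hSa⟩ :=
    hK N p S t hp ht hN hKt hpS (root N) (root_mul_le N) (lt_root_succ N)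
  set q := root N with hq
  have hp0 : 0 < p := by omega
  have hr0 : 0 < r := by rw [hr]; exact Nat.mul_pos hp0 hℓ0
  have hmem := fun s x => mem_lang_word (N := N) (q := q) (p := p) (ρ := ρ) (r := r) hq
    (by rw [hr, hℓ]) hpq hρq hr0 (by omega) s x
  obtain ⟨b, hb⟩ : ∃ b : ZMod 2, ∀ (s : Fin r → ZMod 2) (x : Fin (N - (2 * q + r)) → ZMod 2),
      (∃ j, ∀ i, C.fn j i (word N q p ρ r s x) = true) ↔ form p s x = b := by
    have hz : ∀ z : ZMod 2, z ≠ 1 ↔ z = 0 := by decide
    rcases hf with hf | hf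
    · refine ⟨1, fun s x => ?_⟩
      have h1 : (∃ j, ∀ i, C.fn j i (word N q p ρ r s x) = true) ↔
          C.Accepts (word N q p ρ r s x) := Iff.rfl
      rw [h1, hf, ← hmem s x]
      unfold slice
      rw [decide_eq_true_iff]
    · refine ⟨0, fun s x => ?_⟩
      have h1 : (∃ j, ∀ i, C.fn j i (word N q p ρ r s x) = true) ↔
          C.Accepts (word N q p ρ r s x) := Iff.rfl
      rw [h1, hf, ← hz, Ne, ← hmem s x]
      unfold slice
      rw [decide_eq_false_iff_not]
  refine cover_le (m := N - (2 * q + r)) hp0 hℓ0 hr (by omega) t (hta.trans haℓ)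
    (fun j => Fin (C.fanIn j)) (fun j i s x => C.fn j i (word N q p ρ r s x) = true) b hb
    fun j => ?_
  obtain ⟨A, hAS, hAd, hAb⟩ := hC j
  have hwin : ∀ i, ∃ o, a ≤ ((univ.filter fun v : Fin (N - (2 * q + r)) => dpos v ∈ A i).filter
      fun v : Fin (N - (2 * q + r)) => o ≤ (v : ℕ) ∧ (v : ℕ) < o + ℓ).card := by
    intro i
    refine exists_window (N := N) hℓ0 _ (by omega) (hSa.trans ?_)
    exact (Nat.sub_le_sub_right (hAS i) _).trans (card_data_ge (A i))
  choose o ho using hwin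
  refine ⟨o, fun i => (univ.filter fun v : Fin (N - (2 * q + r)) => dpos v ∈ A i).filter
      fun v => o i ≤ (v : ℕ) ∧ (v : ℕ) < o i + ℓ, fun i v hv => (mem_filter.1 hv).2,
      fun i i' hne => ?_, fun i => hta.trans (ho i), fun b => ?_⟩
  · rw [Finset.disjoint_left]
    intro v hv hv'
    have h1 := (mem_filter.1 (mem_filter.1 hv).1).2
    have h2 := (mem_filter.1 (mem_filter.1 hv').1).2
    exact (Finset.disjoint_left.1 (hAd i i' hne) h1) h2
  · obtain ⟨i, hi⟩ := hAb b
    refine ⟨i, fun s x d => ?_⟩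
    have h1 : C.fn j b (word N q p ρ r s (x + mask ((univ.filter fun v : Fin (N - (2 * q + r)) =>
        dpos v ∈ A i).filter fun v => o i ≤ (v : ℕ) ∧ (v : ℕ) < o i + ℓ) d)) =
        C.fn j b (word N q p ρ r s x) := by
      refine C.congr j b _ _ fun t ht' => word_mask s x d _ t fun v hv htv => ?_
      have h2 := (mem_filter.1 (mem_filter.1 hv).1).2
      rw [← htv] at h2
      exact (Finset.disjoint_left.1 hi h2) ht'
    rw [h1]

end Vale.Agent.P336.Cyl
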