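import Vale.Agent.P336.R2.H746.AnySpec

/-!
# P336: the explicit language for gates which are cylinder intersections

A word of length `N` starts with two pieces of length `q = ⌊√N⌋`; the numbers of ones in them are
`p` and `ρ`.  The next `r = p ρ q` bits are `s`, the remaining bits are `x`.  The word is in the
language if the sum of `s ((∑ T) % r)` over the `p`-element sets `T` of ones of `x` is odd.
-/

namespace Vale.Agent.P336.Cyl

open Finset

/-- The bit of a word in a position. -/
def bit (l : List Bool) (i : ℕ) : Bool := l.getD i false

/-- `⌊√n⌋`. -/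
def root (n : ℕ) : ℕ := ((List.range n).filter fun i => decide ((i + 1) * (i + 1) ≤ n)).length

/-- One step of the dynamic programming: entry `k * r + d` of the list is the parity of the number
of `k`-element sets `T` of ones of `x` below `v` with `(∑ T) % r = d`. -/
def step (w : List Bool) (o r p : ℕ) (c : List Bool) (v : ℕ) : List Bool :=
  (List.range ((p + 1) * r)).map fun i =>
    xor (bit c i) (decide (r ≤ i) &&
      (bit w (o + v) && bit c ((i / r - 1) * r + (i % r + (r - v % r)) % r)))

/-- The table after all `m` bits of `x`, which start in the position `o`. -/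
def table (w : List Bool) (o r p m : ℕ) : List Bool := (List.range m).foldl (step w o r p) [true]

/-- The value for given parameters. -/
def valueAt (w : List Bool) (q p r : ℕ) : ℕ :=
  ∑ d ∈ range r, (bit w (2 * q + d) &&
    bit (table w (2 * q + r) r p (w.length - (2 * q + r))) (p * r + d)).toNat

/-- The value of a word. -/
def value (w : List Bool) : ℕ :=
  valueAt w (root w.length) ((w.take (root w.length)).count true)
    ((w.take (root w.length)).count true *
      (((w.drop (root w.length)).take (root w.length)).count true * root w.length))

/-- The explicit language. -/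
def lang : Set (List Bool) := {w | value w % 2 = 1}

/-- The form. -/
def form (p : ℕ) {r m : ℕ} (s : Fin r → ZMod 2) (x : Fin m → ZMod 2) : ZMod 2 :=
  ∑ T ∈ (univ : Finset (Fin m)).powersetCard p,
    (∑ d : Fin r, if (d : ℕ) = (∑ v ∈ T, (v : ℕ)) % r then s d else 0) * ∏ v ∈ T, x v

/-- The word with given parameters. -/
def word (N q p ρ r : ℕ) (s : Fin r → ZMod 2) (x : Fin (N - (2 * q + r)) → ZMod 2) :
    Fin N → Bool := fun t =>
  if (t : ℕ) < q then decide ((t : ℕ) < p)
  else if (t : ℕ) < 2 * q then decide ((t : ℕ) - q < ρ)
  else if h : (t : ℕ) - 2 * q < r then decide (s ⟨t - 2 * q, h⟩ = 1)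
  else if h : (t : ℕ) - (2 * q + r) < N - (2 * q + r) then
    decide (x ⟨t - (2 * q + r), h⟩ = 1)
  else false

end Vale.Agent.P336.Cyl

/-- The AND gate `j` is a cylinder intersection of `p` parties: there are `p` pairwise disjoint
sets of at least `s` variables such that every function under `j` reads no variable of at least
one of them. -/
def Vale.Agent.P336.AnyCircuit.Cylinder {n : ℕ} (C : Vale.Agent.P336.AnyCircuit n) (p s : ℕ)
    (j : Fin C.middle) : Prop :=
  ∃ A : Fin p → Finset (Fin n), (∀ i, s ≤ (A i).card) ∧
    (∀ i i', i ≠ i' → Disjoint (A i) (A i')) ∧ ∀ b, ∃ i, Disjoint (A i) (C.reads j b)
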