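import Mathlib

/-!
# P336: circuits whose bottom functions have limited views

The variables are the bits of a seed `s` (`p * m` bits) and of `p` vectors `x₁, …, xₚ` of `m` bits.
-/

namespace Vale.Agent.P336.H746

open Finset

/-- The seed: `p * m` bits. -/
abbrev Seed (p m : ℕ) : Type := Fin (p * m) → ZMod 2

/-- The argument: `p` vectors of `m` bits. -/
abbrev Arg (p m : ℕ) : Type := Fin p → Fin m → ZMod 2

variable {p m : ℕ}

/-- The explicit function: the sum of `s_(j₁+⋯+jₚ) x_(1,j₁) ⋯ x_(p,jₚ)` modulo two. -/
def form (s : Seed p m) (x : Arg p m) : ZMod 2 :=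
  ∑ j : Fin p → Fin m, ∑ k : Fin (p * m),
    if ∑ i, (j i : ℕ) = k then s k * ∏ i, x i (j i) else 0

/-- Apart from the seed, `β` reads only the bits in `V`. -/
def ReadsOnly (V : Finset (Fin p × Fin m)) (β : Seed p m → Arg p m → Prop) : Prop :=
  ∀ s x y, (∀ q ∈ V, x q.1 q.2 = y q.1 q.2) → (β s x ↔ β s y)

/-- An OR of `M` ANDs of arbitrary functions: `fn t j` is the `j`-th function under the `t`-th
AND gate, and apart from the seed it reads only the bits in `view t j`. -/
structure Circuit (p m M : ℕ) where
  /-- number of functions under the `t`-th AND gate -/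
  fanIn : Fin M → ℕ
  /-- the bottom functions -/
  fn : (t : Fin M) → Fin (fanIn t) → Seed p m → Arg p m → Prop
  /-- the views of the bottom functions -/
  view : (t : Fin M) → Fin (fanIn t) → Finset (Fin p × Fin m)
  reads : ∀ t j, ReadsOnly (view t j) (fn t j)

/-- The circuit accepts exactly when the value of `form` is `b`. -/
def Circuit.Computes {M : ℕ} (C : Circuit p m M) (b : ZMod 2) : Prop :=
  ∀ s x, (∃ t, ∀ j, C.fn t j s x) ↔ form s x = b

/-- The view `V` contains a bit of the set `A` of bits of the `i`-th vector. -/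
def Meets (V : Finset (Fin p × Fin m)) (i : Fin p) (A : Finset (Fin m)) : Prop :=
  ∃ a ∈ A, (i, a) ∈ V

/-- `Q i b`, `b < g`, are sets of bits of the `i`-th vector. The view `V` is local if it meets at
most one of the sets of each vector, or if it meets none of the sets of some vector. -/
def Local {g : ℕ} (Q : Fin p → Fin g → Finset (Fin m)) (V : Finset (Fin p × Fin m)) : Prop :=
  (∀ i b b', Meets V i (Q i b) → Meets V i (Q i b') → b = b') ∨ ∃ i, ∀ b, ¬ Meets V i (Q i b)

/-- A family of views is tame if there are `g` sets of at least `L` bits of each vector such that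
every view is local or contains at most `k` bits, and on average the bits of each of the sets lie
in at most `w` of the nonlocal views. -/
def Tame (g w : ℕ) (L k : ℝ) {J : Type} [Fintype J] (V : J → Finset (Fin p × Fin m)) : Prop :=
  ∃ Q : Fin p → Fin g → Finset (Fin m), (∀ i b, L ≤ (Q i b).card) ∧
    ∃ F : Finset J, (∀ j ∉ F, Local Q (V j)) ∧ (∀ j ∈ F, ((V j).card : ℝ) ≤ k) ∧
      ∀ i b, ∑ a ∈ Q i b, (F.filter fun j => (i, a) ∈ V j).card ≤ w * (Q i b).card

end Vale.Agent.P336.H746
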