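import Vale.Agent.P336.R2.H746.Cube
import Vale.Agent.P336.R2.H746.Defs

/-!
# The explicit function and the average of its derivatives over the seed
-/

namespace Vale.Agent.P336.H746

open Finset Polynomial
open scoped BigOperators

/-- `(-1) ^ z` for a bit `z`. -/
noncomputable def sgn (z : ZMod 2) : ℝ := if z = 0 then 1 else -1

lemma sgn_add (a b : ZMod 2) : sgn (a + b) = sgn a * sgn b := by
  have h11 : (1 : ZMod 2) + 1 = 0 := by decide
  rcases (by decide : ∀ z : ZMod 2, z = 0 ∨ z = 1) a with rfl | rfl <;>
    rcases (by decide : ∀ z : ZMod 2, z = 0 ∨ z = 1) b with rfl | rfl <;> simp [sgn, h11]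

lemma sgn_zero : sgn 0 = 1 := by simp [sgn]

lemma sgn_one : sgn 1 = -1 := by simp [sgn]

lemma abs_sgn (z : ZMod 2) : |sgn z| = 1 := by
  unfold sgn; split_ifs <;> simp

variable {p m : ℕ}

/-- The polynomial with coefficients `v`. -/
noncomputable def pol (v : Fin m → ZMod 2) : (ZMod 2)[X] := ∑ j : Fin m, C (v j) * X ^ (j : ℕ)

lemma pol_add (v w : Fin m → ZMod 2) : pol (v + w) = pol v + pol w := by
  simp [pol, ← Finset.sum_add_distrib, add_mul]

lemma coeff_pol (v : Fin m → ZMod 2) (j : Fin m) : (pol v).coeff j = v j := by
  simp only [pol, finsetSum_coeff, coeff_C_mul, coeff_X_pow]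
  rw [Finset.sum_eq_single j]
  · simp
  · intro b _ hb
    have : (j : ℕ) ≠ (b : ℕ) := fun h => hb (Fin.ext h.symm)
    simp [this]
  · simp

lemma pol_eq_zero {v : Fin m → ZMod 2} : pol v = 0 ↔ v = 0 := by
  constructor
  · intro h
    ext j
    rw [← coeff_pol v j, h]; simp
  · rintro rfl; simp [pol]

lemma natDegree_pol_le (v : Fin m → ZMod 2) : (pol v).natDegree ≤ m - 1 := by
  refine natDegree_sum_le_of_forall_le _ _ fun j _ => ?_
  refine (natDegree_C_mul_X_pow_le _ _).trans ?_
  omega

/-- The pairing of the seed with a polynomial. -/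
noncomputable def pair {N : ℕ} (s : Fin N → ZMod 2) (P : (ZMod 2)[X]) : ZMod 2 :=
  ∑ k : Fin N, s k * P.coeff k

lemma pair_add {N : ℕ} (s : Fin N → ZMod 2) (P Q : (ZMod 2)[X]) :
    pair s (P + Q) = pair s P + pair s Q := by
  simp [pair, mul_add, Finset.sum_add_distrib]

lemma expect_sgn_pair {N : ℕ} (P : (ZMod 2)[X]) (hP : P.natDegree < N) :
    𝔼 s : Fin N → ZMod 2, sgn (pair s P) = if P = 0 then 1 else 0 := by
  split_ifs with h
  · subst h
    simp [pair, sgn_zero]
  · set k : Fin N := ⟨P.natDegree, hP⟩
    have hk : P.coeff k = 1 := by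
      have h1 : P.coeff k ≠ 0 := by
        simpa [k] using h
      have : ∀ z : ZMod 2, z ≠ 0 → z = 1 := by decide
      exact this _ h1
    have h2 := expect_translate (fun s : Fin N → ZMod 2 => sgn (pair s P)) (Pi.single k 1)
    have h3 : ∀ s : Fin N → ZMod 2, pair (s + Pi.single k 1) P = pair s P + 1 := by
      intro s
      simp only [pair, Pi.add_apply, add_mul, Finset.sum_add_distrib]
      congr 1
      rw [Finset.sum_eq_single k]
      · simp [hk]
      · intro b _ hb
        simp [Pi.single_eq_of_ne hb]
      · simp
    simp only [h3, sgn_add, sgn_one, mul_neg, mul_one, Finset.expect_neg_distrib] at h2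
    linarith

/-- Restriction of a vector to a set of positions. -/
def mask (A : Finset (Fin m)) (d : Fin m → ZMod 2) : Fin m → ZMod 2 :=
  fun j => if j ∈ A then d j else 0

/-- The translation of the `i`-th argument by vectors supported in `A`. -/
def shift (i : Fin p) (A : Finset (Fin m)) : (Fin m → ZMod 2) →+ Arg p m where
  toFun d := Pi.single i (mask A d)
  map_zero' := by
    have : mask A (0 : Fin m → ZMod 2) = 0 := by ext j; simp [mask]
    simp [this]
  map_add' d d' := by
    have : mask A (d + d') = mask A d + mask A d' := by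
      ext j; simp only [mask, Pi.add_apply]; split_ifs <;> simp
    rw [this, Pi.single_add]

lemma shift_apply (i : Fin p) (A : Finset (Fin m)) (d : Fin m → ZMod 2) :
    shift i A d = Pi.single i (mask A d) := rfl

/-- The phase of the partial products. -/
noncomputable def phase (l : List (Fin p)) (D : (ZMod 2)[X]) (s : Seed p m) (x : Arg p m) : ℝ :=
  sgn (pair s (D * (l.map (fun i => pol (x i))).prod))

lemma phase_shift (i : Fin p) (l : List (Fin p)) (hi : i ∉ l) (A : Finset (Fin m))
    (D : (ZMod 2)[X]) (s : Seed p m) (x : Arg p m) (d : Fin m → ZMod 2) :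
    phase (i :: l) D s x * phase (i :: l) D s (x + shift i A d) =
      phase l (D * pol (mask A d)) s x := by
  unfold phase
  rw [← sgn_add, ← pair_add]
  congr 2
  have h1 : (l.map (fun j => pol ((x + shift i A d) j))) = l.map (fun j => pol (x j)) := by
    refine List.map_congr_left fun j hj => ?_
    have : j ≠ i := fun h => hi (h ▸ hj)
    simp [shift_apply, Pi.single_eq_of_ne this]
  have h2 : (x + shift i A d) i = x i + mask A d := by simp [shift_apply]
  simp only [List.map_cons, List.prod_cons, h1, h2, pol_add]
  have h3 : ∀ P : (ZMod 2)[X], P + P = 0 := fun P => CharTwo.add_self_eq_zero P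
  have h4 : D * (pol (x i) * (List.map (fun j => pol (x j)) l).prod) +
      D * ((pol (x i) + pol (mask A d)) * (List.map (fun j => pol (x j)) l).prod) =
      (D * (pol (x i) * (List.map (fun j => pol (x j)) l).prod) +
        D * (pol (x i) * (List.map (fun j => pol (x j)) l).prod)) +
      D * pol (mask A d) * (List.map (fun j => pol (x j)) l).prod := by ring
  rw [h4, h3, zero_add]

lemma expect_mask (A : Finset (Fin m)) :
    𝔼 d : Fin m → ZMod 2, (if mask A d = 0 then (1 : ℝ) else 0) = (1 / 2) ^ A.card := by
  classical
  have h1 : (univ.filter fun d : Fin m → ZMod 2 => mask A d = 0) =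
      Fintype.piFinset (fun j => if j ∈ A then ({0} : Finset (ZMod 2)) else univ) := by
    ext d
    simp only [mem_filter, mem_univ, true_and, Fintype.mem_piFinset]
    constructor
    · intro h j
      have := congrFun h j
      by_cases hj : j ∈ A
      · simpa [mask, hj] using this
      · simp [hj]
    · intro h
      ext j
      have := h j
      by_cases hj : j ∈ A
      · simpa [mask, hj] using this
      · simp [mask, hj]
  have h2 : (univ.filter fun d : Fin m → ZMod 2 => mask A d = 0).card = 2 ^ (m - A.card) := by
    rw [h1, Fintype.card_piFinset]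
    have : ∀ j : Fin m, (if j ∈ A then ({0} : Finset (ZMod 2)) else univ).card =
        if j ∈ A then 1 else 2 := by
      intro j; split_ifs <;> simp
    simp only [this]
    rw [Finset.prod_ite]
    simp only [prod_const_one, one_mul, prod_const]
    congr 1
    have h3 : (univ.filter fun j : Fin m => j ∉ A) = Aᶜ := by ext; simp
    rw [h3, card_compl, Fintype.card_fin]
  rw [Fintype.expect_eq_sum_div_card, Finset.sum_boole, h2]
  have h4 : A.card ≤ m := by simpa using A.card_le_univ
  simp only [Fintype.card_pi, ZMod.card, prod_const, card_univ, Fintype.card_fin, Nat.cast_pow,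
    Nat.cast_ofNat]
  rw [one_div, inv_pow, div_eq_iff (by positivity), eq_comm, inv_mul_eq_iff_eq_mul₀ (by positivity),
    ← pow_add]
  congr 1
  omega

/-- The average over the seed of the cube averages. -/
theorem expect_cube_le (L : List (Fin p × Finset (Fin m))) :
    ∀ (D : (ZMod 2)[X]), (L.map Prod.fst).Nodup → D.natDegree + L.length * (m - 1) < p * m →
      𝔼 s : Seed p m, cube (L.map (fun q => shift q.1 q.2)) (phase (L.map Prod.fst) D s) ≤
        (if D = 0 then 1 else 0) + (L.map (fun q => (1 / 2 : ℝ) ^ q.2.card)).sum := by
  induction L with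
  | nil =>
    intro D _ hD
    have h1 : ∀ s : Seed p m, cube (V := Fin m → ZMod 2) (([] : List (Fin p × Finset (Fin m))).map
        (fun q => shift q.1 q.2)) (phase (([] : List (Fin p × Finset (Fin m))).map Prod.fst) D s) =
        sgn (pair s D) := by
      intro s
      simp [cube, phase]
    simp only [h1]
    rw [expect_sgn_pair D (by simpa using hD)]
    simp
  | cons q L ih =>
    intro D hL hD
    obtain ⟨i, A⟩ := q
    have hi : i ∉ L.map Prod.fst := (List.nodup_cons.1 hL).1
    have hL' := (List.nodup_cons.1 hL).2
    have h1 : ∀ s : Seed p m, cube (((i, A) :: L).map (fun q => shift q.1 q.2))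
        (phase (((i, A) :: L).map Prod.fst) D s) =
        𝔼 d : Fin m → ZMod 2, cube (L.map (fun q => shift q.1 q.2))
          (phase (L.map Prod.fst) (D * pol (mask A d)) s) := by
      intro s
      simp only [List.map_cons, cube]
      refine Finset.expect_congr rfl fun d _ => ?_
      congr 1
      funext x
      exact phase_shift i _ hi A D s x d
    simp only [h1]
    rw [Finset.expect_comm]
    have h2 : ∀ d : Fin m → ZMod 2,
        𝔼 s : Seed p m, cube (L.map (fun q => shift q.1 q.2))
          (phase (L.map Prod.fst) (D * pol (mask A d)) s) ≤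
        (if D = 0 then 1 else 0) + (if mask A d = 0 then (1 : ℝ) else 0) +
          (L.map (fun q => (1 / 2 : ℝ) ^ q.2.card)).sum := by
      intro d
      refine (ih (D * pol (mask A d)) hL' ?_).trans ?_
      · have h3 : (D * pol (mask A d)).natDegree ≤ D.natDegree + (m - 1) :=
          natDegree_mul_le.trans (add_le_add_right (natDegree_pol_le _) _)
        have h4 : ((i, A) :: L).length * (m - 1) = L.length * (m - 1) + (m - 1) := by
          simp [add_mul]
        omega
      · have : (if D * pol (mask A d) = 0 then (1 : ℝ) else 0) ≤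
            (if D = 0 then 1 else 0) + (if mask A d = 0 then (1 : ℝ) else 0) := by
          by_cases hD0 : D = 0
          · simp only [hD0, zero_mul, if_true]
            split_ifs <;> norm_num
          · by_cases hm : mask A d = 0
            · simp [hm, hD0]
              split_ifs <;> norm_num
            · have : D * pol (mask A d) ≠ 0 := mul_ne_zero hD0 (by rwa [Ne, pol_eq_zero])
              simp [this, hD0, hm]
        linarith
    refine (Finset.expect_le_expect fun d _ => h2 d).trans ?_
    rw [Finset.expect_add_distrib, Finset.expect_add_distrib, expect_mask, Fintype.expect_const,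
      Fintype.expect_const]
    simp only [List.map_cons, List.sum_cons]
    linarith

end Vale.Agent.P336.H746
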