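import Vale.Agent.P336.R2.H746.AnySpec

/-!
# P336: gates in which only the functions of critical width are restricted
-/

namespace Vale.Agent.P336

/-- The function `b` under the AND gate `j` is false for at most `2 ^ (n - k)` inputs. -/
def AnyCircuit.AlmostTrue {n : ℕ} (C : AnyCircuit n) (k : ℕ) (j : Fin C.middle)
    (b : Fin (C.fanIn j)) : Prop :=
  (Finset.univ.filter fun x : Fin n → Bool => C.fn j b x = false).card * 2 ^ k ≤ 2 ^ n

/-- The number of different functions in the circuit which are false for at most `2 ^ (n - k)`
inputs. -/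
noncomputable def AnyCircuit.almostTrue {n : ℕ} (C : AnyCircuit n) (k : ℕ) : ℕ :=
  Set.ncard {g : (Fin n → Bool) → Bool | ∃ j b, C.AlmostTrue k j b ∧ C.fn j b = g}

/-- The function `b` under the AND gate `j` is a disjunction of `n` functions, each of which
depends on at most `k` variables only.  (Every disjunction of literals is of this kind.) -/
def AnyCircuit.Splits {n : ℕ} (C : AnyCircuit n) (k : ℕ) (j : Fin C.middle)
    (b : Fin (C.fanIn j)) : Prop :=
  ∃ (h : Fin n → (Fin n → Bool) → Bool) (V : Fin n → Finset (Fin n)),
    (∀ i, (V i).card ≤ k) ∧ (∀ i x y, (∀ v ∈ V i, x v = y v) → h i x = h i y) ∧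
    ∀ x, C.fn j b x = true ↔ ∃ i, h i x = true

/-- The AND gate `j` is a cylinder intersection of `p` parties in its functions of critical width:
there are `p` pairwise disjoint sets `A 0, …, A (p - 1)` of at least `s` variables such that every
function under `j`, except for at most `e` disjunctions of `n` functions of at most `w` variables,
* reads no variable of at least one of the sets `A i`, or
* reads at most `w` variables of the union of the sets `A i`, or
* is false for at most `2 ^ (n - k)` inputs. -/
def AnyCircuit.CriticalCylinder {n : ℕ} (C : AnyCircuit n) (e p s w k : ℕ)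
    (j : Fin C.middle) : Prop :=
  ∃ (X : Finset (Fin (C.fanIn j))) (A : Fin p → Finset (Fin n)),
    X.card ≤ e ∧ (∀ b ∈ X, C.Splits w j b) ∧
    (∀ i, s ≤ (A i).card) ∧ (∀ i i', i ≠ i' → Disjoint (A i) (A i')) ∧
    ∀ b, b ∉ X → (∃ i, Disjoint (A i) (C.reads j b)) ∨
      ((C.reads j b).filter fun v => ∃ i, v ∈ A i).card ≤ w ∨ C.AlmostTrue k j b

end Vale.Agent.P336
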