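import Vale.Agent.P336.R2.H746.WMain
import Vale.Agent.P336.R2.H746.FreeSpec
import Vale.Agent.P336.R2.H13.BadX

/-!
# P336: only the functions of critical width are restricted
-/

namespace Vale.Agent.P336.Cyl

open Finset Vale.Agent.P336.H746
open scoped BigOperators

open Classical in
/-- The reduction to wide cylinder gates. -/
theorem reduce {N e p S R k : ℕ} (hN : 1 ≤ N) (C : AnyCircuit N)
    (hC : ∀ j, C.CriticalCylinder e p S R k j) :
    ∃ D : AnyCircuit N, D.middle ≤ C.middle * N ^ e ∧ (∀ a, D.WideCylinder p S R a) ∧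
      (∀ x, C.Accepts x → D.Accepts x) ∧
      ∀ x, D.Accepts x → C.Accepts x ∨ ∃ j b, C.AlmostTrue k j b ∧ C.fn j b x = false := by
  choose X A hXe hXs hAS hAd hAb using hC
  choose h V hV hVc hh using hXs
  let I : Type := (j : Fin C.middle) × (X j → Fin N)
  let φ : I ≃ Fin (Fintype.card I) := Fintype.equivFin I
  let D : AnyCircuit N :=
    { middle := Fintype.card I
      fanIn := fun a => C.fanIn (φ.symm a).1
      fn := fun a b => if hb : b ∈ X (φ.symm a).1 then h (φ.symm a).1 b hb ((φ.symm a).2 ⟨b, hb⟩)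
        else if C.AlmostTrue k (φ.symm a).1 b then fun _ => true else C.fn (φ.symm a).1 b
      reads := fun a b => if hb : b ∈ X (φ.symm a).1 then V (φ.symm a).1 b hb
          ((φ.symm a).2 ⟨b, hb⟩)
        else if C.AlmostTrue k (φ.symm a).1 b then ∅ else C.reads (φ.symm a).1 b
      congr := by
        intro a b x y hxy
        by_cases hb : b ∈ X (φ.symm a).1
        · simp only [hb, dif_pos] at hxy ⊢
          exact hVc _ _ _ _ _ _ hxy
        · by_cases hb' : C.AlmostTrue k (φ.symm a).1 b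
          · simp only [hb, hb', dif_neg, not_false_eq_true, if_true]
          · simp only [hb, hb', dif_neg, not_false_eq_true, if_false] at hxy ⊢
            exact C.congr _ _ _ _ hxy }
  refine ⟨D, ?_, ?_, ?_, ?_⟩
  · show Fintype.card I ≤ _
    calc Fintype.card I = ∑ j : Fin C.middle, N ^ (X j).card := by
          rw [Fintype.card_sigma]
          refine Finset.sum_congr rfl fun j _ => ?_
          rw [Fintype.card_fun, Fintype.card_coe, Fintype.card_fin]
      _ ≤ ∑ _j : Fin C.middle, N ^ e :=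
          Finset.sum_le_sum fun j _ => Nat.pow_le_pow_right hN (hXe j)
      _ = C.middle * N ^ e := by simp
  · intro a
    refine ⟨A (φ.symm a).1, hAS _, hAd _, fun b => ?_⟩
    by_cases hb : b ∈ X (φ.symm a).1
    · right
      refine (Finset.card_le_card (Finset.filter_subset _ _)).trans ?_
      show (if hb : b ∈ X (φ.symm a).1 then V (φ.symm a).1 b hb
          ((φ.symm a).2 ⟨b, hb⟩)
        else if C.AlmostTrue k (φ.symm a).1 b then ∅ else C.reads (φ.symm a).1 b).card ≤ R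
      rw [dif_pos hb]
      exact hV _ _ _ _
    · by_cases hb' : C.AlmostTrue k (φ.symm a).1 b
      · right
        have : D.reads a b = ∅ := by
          show (if hb : b ∈ X (φ.symm a).1 then V (φ.symm a).1 b hb
              ((φ.symm a).2 ⟨b, hb⟩)
            else if C.AlmostTrue k (φ.symm a).1 b then ∅ else C.reads (φ.symm a).1 b) = ∅
          rw [dif_neg hb, if_pos hb']
        rw [this]
        simp
      · have : D.reads a b = C.reads (φ.symm a).1 b := by
          show (if hb : b ∈ X (φ.symm a).1 then V (φ.symm a).1 b hb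
              ((φ.symm a).2 ⟨b, hb⟩)
            else if C.AlmostTrue k (φ.symm a).1 b then ∅ else C.reads (φ.symm a).1 b) = _
          rw [dif_neg hb, if_neg hb']
        rw [this]
        rcases hAb _ b hb with h1 | h1 | h1
        · exact Or.inl h1
        · right
          convert h1
        · exact absurd h1 hb'
  · rintro x ⟨j, hj⟩
    have h1 : ∀ b : X j, ∃ i, h j b.1 b.2 i x = true := fun b => (hh j b.1 b.2 x).1 (hj b.1)
    choose c hc using h1
    refine ⟨φ ⟨j, c⟩, ?_⟩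
    have key : ∀ a : I, a = ⟨j, c⟩ → ∀ b : Fin (C.fanIn a.1),
        (if hb : b ∈ X a.1 then h a.1 b hb (a.2 ⟨b, hb⟩)
        else if C.AlmostTrue k a.1 b then fun _ => true else C.fn a.1 b) x = true := by
      rintro a rfl b
      by_cases hb : b ∈ X j
      · rw [dif_pos hb]
        exact hc ⟨b, hb⟩
      · rw [dif_neg hb]
        split_ifs
        · rfl
        · exact hj b
    exact key _ (φ.symm_apply_apply _)
  · rintro x ⟨a, ha⟩
    have key : ∀ b : Fin (C.fanIn (φ.symm a).1),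
        (if hb : b ∈ X (φ.symm a).1 then h (φ.symm a).1 b hb ((φ.symm a).2 ⟨b, hb⟩)
        else if C.AlmostTrue k (φ.symm a).1 b then fun _ => true
        else C.fn (φ.symm a).1 b) x = true := ha
    by_cases hbad : ∃ j b, C.AlmostTrue k j b ∧ C.fn j b x = false
    · exact Or.inr hbad
    · left
      refine ⟨(φ.symm a).1, fun b => ?_⟩
      have h1 := key b
      by_cases hb : b ∈ X (φ.symm a).1
      · rw [dif_pos hb] at h1
        exact (hh _ b hb x).2 ⟨_, h1⟩
      · rw [dif_neg hb] at h1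
        by_cases hb' : C.AlmostTrue k (φ.symm a).1 b
        · by_contra hcon
          exact hbad ⟨_, b, hb', by simpa using hcon⟩
        · rw [if_neg hb'] at h1
          exact h1

theorem free_num {M H Nn e t q k D : ℕ} (ht : 1 ≤ t) (hM : M < 2 ^ t) (hH : H < 2 ^ t)
    (he : Nn ^ e ≤ 2 ^ t) (hk : 6 * t + 2 * q ≤ k) (hD : D ≤ M * Nn ^ e) {E : ℝ} (hE0 : 0 ≤ E)
    (hE : E ≤ (H : ℝ) * 2 ^ (2 * q) / 2 ^ k) : (D : ℝ) * E ≤ 1 / 8 := by
  have hM' : (M : ℝ) ≤ 2 ^ t := by exact_mod_cast hM.le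
  have hH' : (H : ℝ) ≤ 2 ^ t := by exact_mod_cast hH.le
  have he' : (Nn : ℝ) ^ e ≤ 2 ^ t := by exact_mod_cast he
  have hD' : (D : ℝ) ≤ 2 ^ t * 2 ^ t := by
    calc (D : ℝ) ≤ M * (Nn : ℝ) ^ e := by exact_mod_cast hD
      _ ≤ 2 ^ t * 2 ^ t := by gcongr
  have h4 : (H : ℝ) * 2 ^ (2 * q) / 2 ^ k ≤ 2 ^ t * 2 ^ (2 * q) / 2 ^ k := by gcongr
  have h5 : (2 : ℝ) ^ t * 2 ^ t * (2 ^ t * 2 ^ (2 * q) / 2 ^ k) ≤ 1 / 8 := by
    have h6 : (2 : ℝ) ^ (t + t + t + 2 * q + 3) ≤ 2 ^ k :=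
      pow_le_pow_right₀ (by norm_num) (by omega)
    have h7 : (2 : ℝ) ^ t * 2 ^ t * (2 ^ t * 2 ^ (2 * q) / 2 ^ k) =
        2 ^ (t + t + t + 2 * q + 3) / 2 ^ k / 8 := by
      simp only [pow_add]
      ring
    rw [h7]
    have h8 : (2 : ℝ) ^ (t + t + t + 2 * q + 3) / 2 ^ k ≤ 1 := by
      rw [div_le_one (by positivity)]
      exact h6
    linarith
  exact (mul_le_mul hD' (hE.trans h4) hE0 (by positivity)).trans h5

theorem free_end {M Nn e t D : ℕ} (hN : 1 ≤ Nn) (hM : M < 2 ^ t)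
    (he : Nn ^ e ≤ 2 ^ t) (hD : D ≤ M * Nn ^ e) (h : 2 ^ (2 * t) ≤ D) : False := by
  have h9 : M * Nn ^ e < 2 ^ t * 2 ^ t := by
    have : 0 < Nn ^ e := Nat.pow_pos (by omega)
    calc M * Nn ^ e < 2 ^ t * Nn ^ e := Nat.mul_lt_mul_of_pos_right hM this
      _ ≤ 2 ^ t * 2 ^ t := Nat.mul_le_mul_left _ he
  have h10 : 2 ^ (2 * t) = 2 ^ t * 2 ^ t := by rw [two_mul, pow_add]
  rw [h10] at h
  exact absurd (h.trans hD) (not_le.2 h9)

open Classical in
/-- **Critical cylinder gates.** -/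
theorem fmain :
    ∃ L : Set (List Bool), InP L ∧ ∃ K : ℕ, ∀ N p S R e k t : ℕ, 1 ≤ N → 2 ≤ p → 1 ≤ R → 1 ≤ t →
      K * R * p ^ 2 * 2 ^ p * N * t ≤ S ^ 2 → p * S ≤ N → N ^ e ≤ 2 ^ t →
      6 * t + 2 * Nat.sqrt N ≤ k → ∀ C : AnyCircuit N,
      (∀ j, C.CriticalCylinder e p S R k j) →
      ((∀ x, C.Accepts x ↔ slice L N x = true) ∨ (∀ x, C.Accepts x ↔ slice L N x = false)) →
      2 ^ t ≤ max C.middle (C.almostTrue k) := by
  obtain ⟨K, hK⟩ := wmain
  refine ⟨lang, inP_lang, K * 2, fun N p S R e k t hN hp hR ht hKt hpS he hk C hC hf => ?_⟩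
  rw [← root_eq_sqrt] at hk
  by_contra hcon
  rw [not_le, max_lt_iff] at hcon
  obtain ⟨hM, hH⟩ := hcon
  obtain ⟨D, hDM, hDW, hD1, hD2⟩ := reduce hN C hC
  have hKt' : K * R * p ^ 2 * 2 ^ p * N * (2 * t) ≤ S ^ 2 := by
    calc K * R * p ^ 2 * 2 ^ p * N * (2 * t) = K * 2 * R * p ^ 2 * 2 ^ p * N * t := by ring
      _ ≤ S ^ 2 := hKt
  obtain ⟨ρ, r, hr, hr0, hrN, hmem, hmain⟩ := hK N p S R (2 * t) hN hp hR (by omega) hKt' hpS
  obtain ⟨b, hb⟩ : ∃ b : ZMod 2, ∀ (s : Fin r → ZMod 2) (x : Fin (N - (2 * root N + r)) → ZMod 2),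
      C.Accepts (word N (root N) p ρ r s x) ↔ form p s x = b := by
    have hz : ∀ z : ZMod 2, z ≠ 1 ↔ z = 0 := by decide
    rcases hf with hf | hf
    · refine ⟨1, fun s x => ?_⟩
      rw [hf, ← hmem s x]
    · refine ⟨0, fun s x => ?_⟩
      rw [hf, ← hz, Ne, ← hmem s x, Bool.not_eq_true]
  have hfin : {g : (Fin N → Bool) → Bool | ∃ j b, C.AlmostTrue k j b ∧ C.fn j b = g}.Finite :=
    Set.toFinite _
  obtain ⟨G, hG⟩ : ∃ G, G = hfin.toFinset := ⟨_, rfl⟩
  have hGm : ∀ g, g ∈ G ↔ ∃ j b, C.AlmostTrue k j b ∧ C.fn j b = g := by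
    intro g
    rw [hG, Set.Finite.mem_toFinset]
    rfl
  have hGc : G.card ≤ C.almostTrue k := by
    rw [hG, AnyCircuit.almostTrue, Set.ncard_eq_toFinset_card _ hfin]
  have hbad := bad_le (N := N) (q := root N) (p := p) (ρ := ρ) (r := r) (k := k)
    (H := C.almostTrue k) (by omega) G
    (by
      intro g hg
      obtain ⟨j, b, h1, rfl⟩ := (hGm g).1 hg
      exact h1) hGc
  have h3 := hmain D hDW b
    (fun s x => ∃ g ∈ G, g (word N (root N) p ρ r s x) = false)
    (fun s x h => hD1 _ ((hb s x).2 h))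
    (fun s x h => by
      rcases hD2 _ h with h1 | ⟨j, b', h1, h2⟩
      · exact Or.inl ((hb s x).1 h1)
      · exact Or.inr ⟨C.fn j b', (hGm _).2 ⟨j, b', h1, rfl⟩, h2⟩)
    (by
      convert free_num ht hM hH he hk hDM
        (Finset.expect_nonneg fun _ _ => Finset.expect_nonneg fun _ _ => by
          split_ifs <;> norm_num) hbad)
  exact free_end hN hM he hDM h3

end Vale.Agent.P336.Cyl
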