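import Vale.Agent.P336.R2.H746.FreeSpec

/-!
# P336: in addition, few disjunctions of literals are free
-/

namespace Vale.Agent.P336

/-- The function `g` is a disjunction of literals. -/
def IsOr {n : ℕ} (g : (Fin n → Bool) → Bool) : Prop :=
  ∃ (W : Finset (Fin n)) (σ : Fin n → Bool), ∀ x, g x = true ↔ ∃ v ∈ W, x v = σ v

/-- The AND gate `j` is a cylinder intersection of `p` parties in its functions of critical width
outside `G`: there are `p` pairwise disjoint sets `A 0, …, A (p - 1)` of at least `s` variables
such that every function under `j`, except for at most `e` disjunctions of `n` functions of at most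
`w` variables,
* reads no variable of at least one of the sets `A i`, or
* reads at most `w` variables of the union of the sets `A i`, or
* is false for at most `2 ^ (n - k)` inputs, or
* is in `G`. -/
def AnyCircuit.CylinderUpTo {n : ℕ} (C : AnyCircuit n) (G : Finset ((Fin n → Bool) → Bool))
    (e p s w k : ℕ) (j : Fin C.middle) : Prop :=
  ∃ (X : Finset (Fin (C.fanIn j))) (A : Fin p → Finset (Fin n)),
    X.card ≤ e ∧ (∀ b ∈ X, C.Splits w j b) ∧
    (∀ i, s ≤ (A i).card) ∧ (∀ i i', i ≠ i' → Disjoint (A i) (A i')) ∧
    ∀ b, b ∉ X → (∃ i, Disjoint (A i) (C.reads j b)) ∨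
      ((C.reads j b).filter fun v => ∃ i, v ∈ A i).card ≤ w ∨ C.AlmostTrue k j b ∨ C.fn j b ∈ G

end Vale.Agent.P336
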