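import Vale.Agent.P336.R2.H746.WSpec
import Vale.Agent.P336.R2.H746.FreeSpec2

/-!
# P336: replacing the functions under the AND gates
-/

namespace Vale.Agent.P336.Cyl

open Finset

/-- The reduction to wide cylinder gates, in general. -/
theorem reduce_gen {N e p S R : ℕ} (hN : 1 ≤ N) (C : AnyCircuit N)
    (Bd Ms : (Fin N → Bool) → Prop) (A : Fin C.middle → Fin p → Finset (Fin N))
    (hAS : ∀ j i, S ≤ (A j i).card) (hAd : ∀ j i i', i ≠ i' → Disjoint (A j i) (A j i'))
    (X : ∀ j, Finset (Fin (C.fanIn j))) (hXe : ∀ j, (X j).card ≤ e)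
    (hXs : ∀ j, ∀ b ∈ X j, C.Splits R j b)
    (hrep : ∀ j b, b ∉ X j → ∃ (f : (Fin N → Bool) → Bool) (V : Finset (Fin N)),
      (∀ x y, (∀ v ∈ V, x v = y v) → f x = f y) ∧
      ((∃ i, Disjoint (A j i) V) ∨ (V.filter fun v => ∃ i, v ∈ A j i).card ≤ R) ∧
      (∀ x, C.fn j b x = true → f x = true ∨ Ms x) ∧
      (∀ x, f x = true → C.fn j b x = true ∨ Bd x)) :
    ∃ D : AnyCircuit N, D.middle ≤ C.middle * N ^ e ∧ (∀ a, D.WideCylinder p S R a) ∧
      (∀ x, C.Accepts x → D.Accepts x ∨ Ms x) ∧ (∀ x, D.Accepts x → C.Accepts x ∨ Bd x) := by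
  classical
  choose h V hV hVc hh using hXs
  choose f W hWc hWt hf1 hf2 using hrep
  let I : Type := (j : Fin C.middle) × (X j → Fin N)
  let φ : I ≃ Fin (Fintype.card I) := Fintype.equivFin I
  let D : AnyCircuit N :=
    { middle := Fintype.card I
      fanIn := fun a => C.fanIn (φ.symm a).1
      fn := fun a b => if hb : b ∈ X (φ.symm a).1 then h (φ.symm a).1 b hb ((φ.symm a).2 ⟨b, hb⟩)
        else f (φ.symm a).1 b hb
      reads := fun a b => if hb : b ∈ X (φ.symm a).1 then V (φ.symm a).1 b hb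
          ((φ.symm a).2 ⟨b, hb⟩)
        else W (φ.symm a).1 b hb
      congr := by
        intro a b x y hxy
        by_cases hb : b ∈ X (φ.symm a).1
        · simp only [hb, dif_pos] at hxy ⊢
          exact hVc _ _ _ _ _ _ hxy
        · simp only [hb, dif_neg, not_false_eq_true] at hxy ⊢
          exact hWc _ _ _ _ _ hxy }
  refine ⟨D, ?_, ?_, ?_, ?_⟩
  · show Fintype.card I ≤ _
    calc Fintype.card I = ∑ j : Fin C.middle, N ^ (X j).card := by
          rw [Fintype.card_sigma]
          refine Finset.sum_congr rfl fun j _ => ?_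
          rw [Fintype.card_fun, Fintype.card_coe, Fintype.card_fin]
      _ ≤ ∑ _j : Fin C.middle, N ^ e :=
          Finset.sum_le_sum fun j _ => Nat.pow_le_pow_right hN (hXe j)
      _ = C.middle * N ^ e := by simp
  · intro a
    refine ⟨A (φ.symm a).1, hAS _, hAd _, fun b => ?_⟩
    by_cases hb : b ∈ X (φ.symm a).1
    · right
      have : D.reads a b = V (φ.symm a).1 b hb ((φ.symm a).2 ⟨b, hb⟩) := dif_pos hb
      rw [this]
      exact (Finset.card_le_card (Finset.filter_subset _ _)).trans (hV _ _ _ _)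
    · have : D.reads a b = W (φ.symm a).1 b hb := dif_neg hb
      rw [this]
      rcases hWt (φ.symm a).1 b hb with h1 | h1
      · exact Or.inl h1
      · right
        convert h1
  · rintro x ⟨j, hj⟩
    by_cases hM : Ms x
    · exact Or.inr hM
    left
    have h1 : ∀ b : X j, ∃ i, h j b.1 b.2 i x = true := fun b => (hh j b.1 b.2 x).1 (hj b.1)
    choose c hc using h1
    refine ⟨φ ⟨j, c⟩, ?_⟩
    have key : ∀ a : I, a = ⟨j, c⟩ → ∀ b : Fin (C.fanIn a.1),
        (if hb : b ∈ X a.1 then h a.1 b hb (a.2 ⟨b, hb⟩) else f a.1 b hb) x = true := by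
      rintro a rfl b
      by_cases hb : b ∈ X j
      · rw [dif_pos hb]
        exact hc ⟨b, hb⟩
      · rw [dif_neg hb]
        exact (hf1 j b hb x (hj b)).resolve_right hM
    exact key _ (φ.symm_apply_apply _)
  · rintro x ⟨a, ha⟩
    have key : ∀ b : Fin (C.fanIn (φ.symm a).1),
        (if hb : b ∈ X (φ.symm a).1 then h (φ.symm a).1 b hb ((φ.symm a).2 ⟨b, hb⟩)
        else f (φ.symm a).1 b hb) x = true := ha
    by_cases hbad : Bd x
    · exact Or.inr hbad
    · left
      refine ⟨(φ.symm a).1, fun b => ?_⟩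
      have h1 := key b
      by_cases hb : b ∈ X (φ.symm a).1
      · rw [dif_pos hb] at h1
        exact (hh _ b hb x).2 ⟨_, h1⟩
      · rw [dif_neg hb] at h1
        exact (hf2 _ b hb x h1).resolve_right hbad

end Vale.Agent.P336.Cyl
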