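import Vale.Agent.P336.R2.H836.CylMiss
import Vale.Agent.P336.R2.H81.CylProb
import Vale.Agent.P336.R2.H524.HalfSet
import Vale.Agent.P336.R2.H746.Reduce2
import Vale.Agent.P336.R2.H746.FreeMain

/-!
# P336: critical cylinder gates, and few arbitrary disjunctions of literals
-/

namespace Vale.Agent.P336.Cyl

open Finset Vale.Agent.P336.H746
open scoped BigOperators

open Classical in
theorem miss_le {N q p ρ r n : ℕ} {I : Type} [Fintype I] (T : I → Finset (Fin N))
    (σ : I → Fin N → Bool) (hn : ∀ i, n ≤ (T i).card) (hT : ∀ i, ∀ v ∈ T i, ¬ (v : ℕ) < 2 * q) :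
    𝔼 s : Fin r → ZMod 2, 𝔼 x : Fin (N - (2 * q + r)) → ZMod 2,
      (if ¬ ∀ i, ∃ v ∈ T i, word N q p ρ r s x v = σ i v then (1 : ℝ) else 0) ≤
      Fintype.card I * (1 / 2 : ℝ) ^ n := by
  have h1 : ∀ (s : Fin r → ZMod 2) (x : Fin (N - (2 * q + r)) → ZMod 2),
      (if ¬ ∀ i, ∃ v ∈ T i, word N q p ρ r s x v = σ i v then (1 : ℝ) else 0) ≤
      ∑ i, (if ∃ v ∈ T i, word N q p ρ r s x v = σ i v then (0 : ℝ) else 1) := by
    intro s x
    have hnn : ∀ i ∈ (univ : Finset I),
        (0 : ℝ) ≤ (if ∃ v ∈ T i, word N q p ρ r s x v = σ i v then (0 : ℝ) else 1) :=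
      fun i _ => by split_ifs <;> norm_num
    by_cases h : ∀ i, ∃ v ∈ T i, word N q p ρ r s x v = σ i v
    · rw [if_neg (not_not.2 h)]
      exact Finset.sum_nonneg hnn
    · rw [if_pos h]
      obtain ⟨i, hi⟩ := not_forall.1 h
      calc (1 : ℝ) = (if ∃ v ∈ T i, word N q p ρ r s x v = σ i v then (0 : ℝ) else 1) := by
            rw [if_neg hi]
        _ ≤ _ := Finset.single_le_sum (f := fun i =>
          (if ∃ v ∈ T i, word N q p ρ r s x v = σ i v then (0 : ℝ) else 1)) hnn (mem_univ i)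
  calc 𝔼 s : Fin r → ZMod 2, 𝔼 x : Fin (N - (2 * q + r)) → ZMod 2,
        (if ¬ ∀ i, ∃ v ∈ T i, word N q p ρ r s x v = σ i v then (1 : ℝ) else 0)
      ≤ 𝔼 s : Fin r → ZMod 2, 𝔼 x : Fin (N - (2 * q + r)) → ZMod 2,
        ∑ i, (if ∃ v ∈ T i, word N q p ρ r s x v = σ i v then (0 : ℝ) else 1) :=
        Finset.expect_le_expect fun s _ => Finset.expect_le_expect fun x _ => h1 s x
    _ = ∑ i, 𝔼 s : Fin r → ZMod 2, 𝔼 x : Fin (N - (2 * q + r)) → ZMod 2,
        (if ∃ v ∈ T i, word N q p ρ r s x v = σ i v then (0 : ℝ) else 1) := by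
        simp only [Finset.expect_sum_comm]
    _ ≤ ∑ _i : I, (1 / 2 : ℝ) ^ n := by
        refine Finset.sum_le_sum fun i _ => ?_
        have h2 := Vale.Agent.P336.R2.H81.cyl_prob_le (q := q) (p := p) (ρ := ρ) (r := r)
          (fun w : Fin N → Bool => ∃ v ∈ T i, w v = σ i v) (T i) (hT i)
          (by
            intro w w' hw hw' v hv
            have e1 : w v ≠ σ i v := fun h => hw ⟨v, hv, h⟩
            have e2 : w' v ≠ σ i v := fun h => hw' ⟨v, hv, h⟩
            revert e1 e2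
            cases w v <;> cases w' v <;> cases σ i v <;> simp)
        refine le_trans (le_of_eq ?_)
          (h2.trans (pow_le_pow_of_le_one (by norm_num) (by norm_num) (hn i)))
        refine Finset.expect_congr rfl fun s _ => Finset.expect_congr rfl fun x _ => ?_
        by_cases h : ∃ v ∈ T i, word N q p ρ r s x v = σ i v
        · rw [if_pos h, if_pos h]
        · rw [if_neg h, if_neg h]
    _ = Fintype.card I * (1 / 2 : ℝ) ^ n := by simp

theorem free_num2 {K0 R p N t S q : ℕ} (hp : 2 ≤ p) (hR : 1 ≤ R) (ht : 1 ≤ t) (hN : 1 ≤ N)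
    (hK : 1024 * (K0 + 1) * R * p ^ 2 * 2 ^ p * N * t ≤ S ^ 2) (hpS : p * S ≤ N)
    (hq : q * q ≤ N) :
    K0 * R * p ^ 2 * 2 ^ p * N * (2 * t + 1) ≤ ((S - 2 * q) / 4) ^ 2 ∧
      p * ((S - 2 * q) / 4) ≤ N ∧ t + p + 2 ≤ (S - 2 * q) / 16 := by
  obtain ⟨P, hP⟩ : ∃ P, P = 2 ^ p := ⟨_, rfl⟩
  have hPp : p < P := by rw [hP]; exact Nat.lt_two_pow_self
  rw [← hP] at hK ⊢
  have hP0 : 0 < P := by omega
  have hp0 : 0 < p := by omega
  have hS0 : 0 < S := by
    rcases Nat.eq_zero_or_pos S with h | h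
    · exfalso
      rw [h] at hK
      have h3 : 0 < 1024 * (K0 + 1) * R * p ^ 2 * P * N * t := by positivity
      rw [zero_pow (by norm_num)] at hK
      omega
    · exact h
  -- `S ≥ 1024 p³ P t`
  have hS1 : 1024 * (p ^ 3 * (P * t)) ≤ S := by
    have h4 : (1024 * (p ^ 3 * (P * t))) * S ≤ S * S := by
      calc (1024 * (p ^ 3 * (P * t))) * S = 1024 * 1 * 1 * p ^ 2 * P * (p * S) * t := by ring
        _ ≤ 1024 * (K0 + 1) * R * p ^ 2 * P * N * t := by gcongr; omega
        _ ≤ S ^ 2 := hK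
        _ = S * S := pow_two S
    exact Nat.le_of_mul_le_mul_right h4 hS0
  have hPt : P ≤ P * t := Nat.le_mul_of_pos_right _ ht
  have htP : 2 * t ≤ P * t := Nat.mul_le_mul_right _ (by omega)
  have hp3 : P * t ≤ p ^ 3 * (P * t) := Nat.le_mul_of_pos_left _ (by positivity)
  -- `S ≥ 32 q`
  have hSq : 32 * q ≤ S := by
    by_contra hcon
    have h3 : S < 32 * q := by omega
    have h4 : S * S < (32 * q) * (32 * q) := Nat.mul_self_lt_mul_self h3
    have h5 : 1024 * (q * q) ≤ S * S := by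
      calc 1024 * (q * q) ≤ 1024 * N := Nat.mul_le_mul_left _ hq
        _ = 1024 * 1 * 1 * 1 ^ 2 * 1 * N * 1 := by ring
        _ ≤ 1024 * (K0 + 1) * R * p ^ 2 * P * N * t := by gcongr <;> omega
        _ ≤ S ^ 2 := hK
        _ = S * S := pow_two S
    have h6 : (32 * q) * (32 * q) = 1024 * (q * q) := by ring
    omega
  have h8 : S ≤ 8 * ((S - 2 * q) / 4) := by omega
  refine ⟨?_, ?_, ?_⟩
  · have h9 : S ^ 2 ≤ (8 * ((S - 2 * q) / 4)) ^ 2 := Nat.pow_le_pow_left h8 2
    have h10 : (8 * ((S - 2 * q) / 4)) ^ 2 = 64 * ((S - 2 * q) / 4) ^ 2 := by ring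
    have h11 : 64 * (K0 * R * p ^ 2 * P * N * (2 * t + 1)) ≤
        1024 * (K0 + 1) * R * p ^ 2 * P * N * t := by
      calc 64 * (K0 * R * p ^ 2 * P * N * (2 * t + 1))
          ≤ 64 * ((K0 + 1) * R * p ^ 2 * P * N * (16 * t)) := by gcongr <;> omega
        _ = 1024 * (K0 + 1) * R * p ^ 2 * P * N * t := by ring
    omega
  · refine le_trans (Nat.mul_le_mul_left p ?_) hpS
    omega
  · omega

open Classical in
/-- **Critical cylinder gates and few disjunctions of literals.** -/
theorem fmain2 :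
    ∃ L : Set (List Bool), InP L ∧ ∃ K : ℕ, ∀ N p S R e k t : ℕ, 1 ≤ N → 2 ≤ p → 1 ≤ R → 1 ≤ t →
      K * R * p ^ 2 * 2 ^ p * N * t ≤ S ^ 2 → p * S ≤ N → N ^ e ≤ 2 ^ t →
      6 * t + 2 * Nat.sqrt N ≤ k → ∀ (C : AnyCircuit N) (G : Finset ((Fin N → Bool) → Bool)),
      (∀ g ∈ G, IsOr g) → G.card * 256 ≤ 2 ^ (R / 16) →
      (∀ j, C.CylinderUpTo G e p S R k j) →
      ((∀ x, C.Accepts x ↔ slice L N x = true) ∨ (∀ x, C.Accepts x ↔ slice L N x = false)) →
      2 ^ t ≤ max C.middle (C.almostTrue k) := by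
  obtain ⟨K, hK⟩ := wmain_miss
  refine ⟨lang, inP_lang, 1024 * (K + 1), fun N p S R e k t hN hp hR ht hKt hpS he hk C G hG hGc
    hC hf => ?_⟩
  rw [← root_eq_sqrt] at hk
  by_contra hcon
  rw [not_le, max_lt_iff] at hcon
  obtain ⟨hM, hH⟩ := hcon
  obtain ⟨hn1, hn2, hn3⟩ := free_num2 hp hR ht hN hKt hpS (root_mul_le N)
  obtain ⟨ρ, r, hr, hr0, hrN, hmem, hmain⟩ := hK N p ((S - 2 * root N) / 4) R (2 * t + 1) hN hp hR
    (by omega) hn1 hn2
  obtain ⟨q, hq⟩ : ∃ q, q = root N := ⟨_, rfl⟩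
  rw [← hq] at hk hn1 hn2 hn3 hr hrN hmem hmain
  obtain ⟨b, hb⟩ : ∃ b : ZMod 2, ∀ (s : Fin r → ZMod 2) (x : Fin (N - (2 * q + r)) → ZMod 2),
      C.Accepts (word N q p ρ r s x) ↔ form p s x = b := by
    have hz : ∀ z : ZMod 2, z ≠ 1 ↔ z = 0 := by decide
    rcases hf with hf | hf
    · refine ⟨1, fun s x => ?_⟩
      rw [hf, ← hmem s x]
    · refine ⟨0, fun s x => ?_⟩
      rw [hf, ← hz, Ne, ← hmem s x, Bool.not_eq_true]
  -- the disjunctions in `G`
  have hG' : ∀ g : G, IsOr g.1 := fun g => hG g.1 g.2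
  choose W σ hWσ using hG'
  choose X A hXe hXs hAS hAd hAb using hC
  let I : Type := {g : G // R < ((W g).filter fun v : Fin N => ¬ (v : ℕ) < 2 * q).card}
  have hIc : Fintype.card I ≤ G.card := by
    calc Fintype.card I ≤ Fintype.card G := Fintype.card_subtype_le _
      _ = G.card := Fintype.card_coe G
  obtain ⟨U, hU1, hU2⟩ := Vale.Agent.P336.R2.H524.half_set (N := N) (I := I)
    (J := Fin C.middle × Fin p) R (S - 2 * q)
    (fun g => (W g.1).filter fun v : Fin N => ¬ (v : ℕ) < 2 * q)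
    (fun j => (A j.1 j.2).filter fun v : Fin N => ¬ (v : ℕ) < 2 * q)
    (fun g => g.2.le)
    (fun j => by
      have h1 := Finset.card_filter_add_card_filter_not (s := A j.1 j.2)
        (fun v : Fin N => (v : ℕ) < 2 * q)
      have h2 : ((A j.1 j.2).filter fun v : Fin N => (v : ℕ) < 2 * q).card ≤ 2 * q := by
        refine (Finset.card_le_card_of_injOn (t := range (2 * q)) (fun v : Fin N => (v : ℕ))
          (fun v hv => ?_) (fun v _ v' _ h => Fin.ext h)).trans (by simp)
        simpa using (mem_filter.1 hv).2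
      have h3 := hAS j.1 j.2
      omega)
    ((Nat.mul_le_mul hIc (by norm_num : 4 ≤ 256)).trans hGc)
    (by
      rw [Fintype.card_prod, Fintype.card_fin, Fintype.card_fin]
      calc C.middle * p * 4 ≤ 2 ^ t * 2 ^ p * 2 ^ 2 := by
            gcongr
            · exact Nat.lt_two_pow_self.le
            · norm_num
        _ = 2 ^ (t + p + 2) := by rw [pow_add, pow_add]
        _ ≤ _ := Nat.pow_le_pow_right (by norm_num) hn3)
  -- the one function which replaces the wide disjunctions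
  let gU : (Fin N → Bool) → Bool := fun x => decide (∀ g : I,
    ∃ v ∈ ((W g.1).filter fun v : Fin N => ¬ (v : ℕ) < 2 * q) \ U, x v = σ g.1 v)
  obtain ⟨D, hDM, hDW, hD1, hD2⟩ := reduce_gen (N := N) (e := e) (p := p)
    (S := (S - 2 * q) / 4) (R := R) hN C
    (fun x => ∃ j b, C.AlmostTrue k j b ∧ C.fn j b x = false) (fun x => gU x = false)
    (fun j i => ((A j i).filter fun v : Fin N => ¬ (v : ℕ) < 2 * q) ∩ U)
    (fun j i => hU2 (j, i))
    (fun j i i' hne => by
      refine Finset.disjoint_of_subset_left ?_ (Finset.disjoint_of_subset_right ?_ (hAd j i i' hne))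
      · exact (Finset.inter_subset_left).trans (Finset.filter_subset _ _)
      · exact (Finset.inter_subset_left).trans (Finset.filter_subset _ _))
    X hXe hXs
    (by
      intro j b' hb'
      rcases hAb j b' hb' with h1 | h1 | h1 | h1
      · obtain ⟨i, hi⟩ := h1
        refine ⟨C.fn j b', C.reads j b', C.congr j b', Or.inl ⟨i, ?_⟩, fun x h => Or.inl h,
          fun x h => Or.inl h⟩
        exact Finset.disjoint_of_subset_left
          ((Finset.inter_subset_left).trans (Finset.filter_subset _ _)) hi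
      · refine ⟨C.fn j b', C.reads j b', C.congr j b', Or.inr (le_trans ?_ h1),
          fun x h => Or.inl h, fun x h => Or.inl h⟩
        refine Finset.card_le_card fun v hv => ?_
        obtain ⟨h2, i, h3⟩ := mem_filter.1 hv
        exact mem_filter.2 ⟨h2, i, (mem_filter.1 (mem_inter.1 h3).1).1⟩
      · refine ⟨fun _ => true, ∅, fun _ _ _ => rfl, Or.inr (by simp), fun _ _ => Or.inl rfl,
          fun x _ => ?_⟩
        by_cases h2 : C.fn j b' x = true
        · exact Or.inl h2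
        · exact Or.inr ⟨j, b', h1, by simpa using h2⟩
      · by_cases h2 : R < ((W ⟨C.fn j b', h1⟩).filter fun v : Fin N => ¬ (v : ℕ) < 2 * q).card
        · refine ⟨gU, Uᶜ, ?_, Or.inl ⟨⟨0, by omega⟩, ?_⟩, fun x _ => ?_, fun x hx => ?_⟩
          · intro x y hxy
            have : (∀ g : I, ∃ v ∈ ((W g.1).filter fun v : Fin N => ¬ (v : ℕ) < 2 * q) \ U,
                x v = σ g.1 v) ↔ (∀ g : I, ∃ v ∈ ((W g.1).filter fun v : Fin N =>
                ¬ (v : ℕ) < 2 * q) \ U, y v = σ g.1 v) := by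
              refine forall_congr' fun g => exists_congr fun v => and_congr_right fun hv => ?_
              rw [hxy v (Finset.mem_compl.2 (mem_sdiff.1 hv).2)]
            exact decide_eq_decide.2 this
          · exact Finset.disjoint_of_subset_left Finset.inter_subset_right disjoint_compl_right
          · by_cases h3 : gU x = true
            · exact Or.inl h3
            · exact Or.inr (by simpa using h3)
          · left
            have h3 := (of_decide_eq_true hx) ⟨⟨C.fn j b', h1⟩, h2⟩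
            obtain ⟨v, hv, hxv⟩ := h3
            exact (hWσ ⟨C.fn j b', h1⟩ x).2
              ⟨v, (mem_filter.1 (mem_sdiff.1 hv).1).1, hxv⟩
        · refine ⟨C.fn j b', W ⟨C.fn j b', h1⟩, ?_, Or.inr (le_trans ?_ (not_lt.1 h2)),
            fun x h => Or.inl h, fun x h => Or.inl h⟩
          · intro x y hxy
            have : C.fn j b' x = true ↔ C.fn j b' y = true := by
              rw [hWσ ⟨C.fn j b', h1⟩ x, hWσ ⟨C.fn j b', h1⟩ y]
              refine exists_congr fun v => and_congr_right fun hv => ?_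
              rw [hxy v hv]
            exact Bool.eq_iff_iff.2 this
          · refine Finset.card_le_card fun v hv => ?_
            obtain ⟨h3, i, h4⟩ := mem_filter.1 hv
            exact mem_filter.2 ⟨h3, (mem_filter.1 (mem_inter.1 h4).1).2⟩)
  -- the almost true functions
  have hfin : {g : (Fin N → Bool) → Bool | ∃ j b, C.AlmostTrue k j b ∧ C.fn j b = g}.Finite :=
    Set.toFinite _
  obtain ⟨F, hF⟩ : ∃ F, F = hfin.toFinset := ⟨_, rfl⟩
  have hFm : ∀ g, g ∈ F ↔ ∃ j b, C.AlmostTrue k j b ∧ C.fn j b = g := by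
    intro g
    rw [hF, Set.Finite.mem_toFinset]
    rfl
  have hFc : F.card ≤ C.almostTrue k := by
    rw [hF, AnyCircuit.almostTrue, Set.ncard_eq_toFinset_card _ hfin]
  have hbad := bad_le (N := N) (q := q) (p := p) (ρ := ρ) (r := r) (k := k)
    (H := C.almostTrue k) (by omega) F
    (by
      intro g hg
      obtain ⟨j, b, h1, rfl⟩ := (hFm g).1 hg
      exact h1) hFc
  have hmiss := miss_le (N := N) (q := q) (p := p) (ρ := ρ) (r := r) (n := R / 4) (I := I)
    (fun g => ((W g.1).filter fun v : Fin N => ¬ (v : ℕ) < 2 * q) \ U) (fun g => σ g.1) hU1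
    (fun g v hv => (mem_filter.1 (mem_sdiff.1 hv).1).2)
  have hmiss2 : (Fintype.card I : ℝ) * (1 / 2) ^ (R / 4) ≤ 1 / 16 := by
    have h1 : Fintype.card I * 256 ≤ 2 ^ (R / 4) :=
      (Nat.mul_le_mul_right _ hIc).trans (hGc.trans (Nat.pow_le_pow_right (by norm_num) (by omega)))
    have h2 : (Fintype.card I : ℝ) * 256 ≤ 2 ^ (R / 4) := by exact_mod_cast h1
    have h3 : (2 : ℝ) ^ (R / 4) * (1 / 2) ^ (R / 4) = 1 := by rw [← mul_pow]; norm_num
    have h4 : (0 : ℝ) < (1 / 2) ^ (R / 4) := by positivity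
    nlinarith [mul_le_mul_of_nonneg_right h2 h4.le]
  have hE0 : 0 ≤ 𝔼 s : Fin r → ZMod 2, 𝔼 x : Fin (N - (2 * q + r)) → ZMod 2,
      (if ∃ g ∈ F, g (word N q p ρ r s x) = false then (1 : ℝ) else 0) :=
    Finset.expect_nonneg fun _ _ => Finset.expect_nonneg fun _ _ => by
      split_ifs <;> norm_num
  have h3 := hmain D hDW b
    (fun s x => ∃ g ∈ F, g (word N q p ρ r s x) = false)
    (fun s x => gU (word N q p ρ r s x) = false)
    (fun s x h => hD1 _ ((hb s x).2 h))
    (fun s x h => by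
      rcases hD2 _ h with h1 | ⟨j, b', h1, h2⟩
      · exact Or.inl ((hb s x).1 h1)
      · exact Or.inr ⟨C.fn j b', (hFm _).2 ⟨j, b', h1, rfl⟩, h2⟩)
    (by
      refine le_trans (le_of_eq ?_) (free_num ht hM hH he hk hDM hE0 hbad)
      congr 1
      refine Finset.expect_congr rfl fun s _ => Finset.expect_congr rfl fun x _ => ?_
      by_cases h : ∃ g ∈ F, g (word N q p ρ r s x) = false
      · rw [if_pos h, if_pos h]
      · rw [if_neg h, if_neg h])
    (by
      refine le_trans (le_of_eq ?_) (hmiss.trans hmiss2)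
      refine Finset.expect_congr rfl fun s _ => Finset.expect_congr rfl fun x _ => ?_
      by_cases h : ∀ g : I, ∃ v ∈ ((W g.1).filter fun v : Fin N => ¬ (v : ℕ) < 2 * q) \ U,
          word N q p ρ r s x v = σ g.1 v
      · rw [if_neg (not_not.2 h), if_neg]
        intro h1
        exact (of_decide_eq_false h1) h
      · rw [if_pos h, if_pos]
        exact decide_eq_false h)
  have h10 : 2 ^ (2 * t) ≤ D.middle := by
    have : 2 ^ (2 * t + 1) = 2 * 2 ^ (2 * t) := by rw [pow_succ]; ring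
    omega
  exact free_end hN hM he hDM h10

end Vale.Agent.P336.Cyl
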