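import Mathlib

/-!
# P336: `(1 - 1 / p) ^ p` is at least a quarter
-/

namespace Vale.Agent.P336.H746

lemma quarter_le {p : ℕ} (hp : 4 ≤ p) : (1 / 4 : ℝ) ≤ (1 - 1 / p) ^ p := by
  have hp' : (4 : ℝ) ≤ p := by exact_mod_cast hp
  have h3 : (1 : ℝ) / p ≤ 1 / 4 := one_div_le_one_div_of_le (by norm_num) hp'
  have hx : (0 : ℝ) < 1 - 1 / p := by linarith
  have h1 := Real.one_sub_inv_le_log_of_pos hx
  have h2 : (p : ℝ) * (1 - (1 - 1 / (p : ℝ))⁻¹) = -1 - (1 - (p : ℝ)⁻¹)⁻¹ * (p : ℝ)⁻¹ := by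
    have h4 : (p : ℝ) ≠ 0 := by linarith
    have h5 : (p : ℝ) - 1 ≠ 0 := by linarith
    field_simp
    ring
  have h6 : (1 - (p : ℝ)⁻¹)⁻¹ * (p : ℝ)⁻¹ ≤ 1 / 3 := by
    rw [one_div] at h3
    have h7 : (1 - (p : ℝ)⁻¹)⁻¹ ≤ (3 / 4)⁻¹ := inv_anti₀ (by norm_num) (by linarith)
    have h8 : (0 : ℝ) ≤ (p : ℝ)⁻¹ := by positivity
    calc (1 - (p : ℝ)⁻¹)⁻¹ * (p : ℝ)⁻¹ ≤ (3 / 4)⁻¹ * (1 / 4) := by gcongr
      _ = 1 / 3 := by norm_num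
  rw [← Real.log_le_log_iff (by norm_num) (pow_pos hx p), Real.log_pow]
  have h9 : Real.log (1 / 4) = -(2 * Real.log 2) := by
    rw [one_div, Real.log_inv, show (4 : ℝ) = 2 ^ 2 by norm_num, Real.log_pow]
    norm_num
  have h10 := Real.log_two_gt_d9
  have h11 : (p : ℝ) * (1 - (1 - 1 / (p : ℝ))⁻¹) ≤ p * Real.log (1 - 1 / p) :=
    mul_le_mul_of_nonneg_left h1 (by linarith)
  rw [h9]
  linarith

end Vale.Agent.P336.H746
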