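import Vale.Agent.P336.R2.H746.CylCore
import Vale.Agent.P336.R2.H524.NarrowExp

/-!
# P336: functions of few variables together with functions which miss one of the sets
-/

namespace Vale.Agent.P336.Cyl

open Finset Vale.Agent.P336.H746
open Vale.Agent.P336.R2.H836 (E mix)
open scoped BigOperators

variable {p r m ℓ a : ℕ}

lemma E_eq {α : Type*} [Fintype α] (f : α → ℝ) : E f = 𝔼 x, f x :=
  (Fintype.expect_eq_sum_div_card f).symm

/-- The vector with the bits of `z` in the positions `e`. -/
noncomputable def emb (e : Fin p × Fin a → Fin m) (z : Fin p × Fin a → Bool) : Fin m → ZMod 2 :=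
  open Classical in fun v => if ∃ w, e w = v ∧ z w = true then 1 else 0

/-- Addition of bits. -/
def bx (x z : Fin p × Fin a → Bool) : Fin p × Fin a → Bool := fun w => xor (x w) (z w)

/-- The bits in `B`. -/
def res (B : Finset (Fin p × Fin a)) (z : Fin p × Fin a → Bool) : Fin p × Fin a → Bool :=
  fun w => decide (w ∈ B) && z w

lemma emb_apply {e : Fin p × Fin a → Fin m} (he : Function.Injective e)
    (z : Fin p × Fin a → Bool) (w : Fin p × Fin a) : emb e z (e w) = if z w = true then 1 else 0 := by
  unfold emb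
  refine if_congr ⟨?_, fun h => ⟨w, rfl, h⟩⟩ rfl rfl
  rintro ⟨w', h1, h2⟩
  rw [← he h1]
  exact h2

lemma emb_bx {e : Fin p × Fin a → Fin m} (he : Function.Injective e)
    (x z : Fin p × Fin a → Bool) : emb e (bx x z) = emb e x + emb e z := by
  funext v
  by_cases h : ∃ w, e w = v
  · obtain ⟨w, rfl⟩ := h
    rw [Pi.add_apply, emb_apply he, emb_apply he, emb_apply he]
    have h11 : (1 : ZMod 2) + 1 = 0 := by decide
    unfold bx
    cases x w <;> cases z w <;> simp [h11]
  · have h1 : ∀ y : Fin p × Fin a → Bool, emb e y v = 0 := by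
      intro y
      unfold emb
      rw [if_neg]
      rintro ⟨w, hw, -⟩
      exact h ⟨w, hw⟩
    rw [Pi.add_apply, h1, h1, h1, add_zero]

lemma bx_bx (x z : Fin p × Fin a → Bool) : bx x (bx x z) = z := by
  funext w
  unfold bx
  cases x w <;> cases z w <;> rfl

lemma mix_eq (B : Finset (Fin p × Fin a)) (x z : Fin p × Fin a → Bool) :
    mix B x z = bx x (res B (bx x z)) := by
  funext w
  show (if w ∈ B then z w else x w) = xor (x w) (decide (w ∈ B) && xor (x w) (z w))
  by_cases h : w ∈ B <;> cases x w <;> cases z w <;> simp [h]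

lemma res_bx (B : Finset (Fin p × Fin a)) (x z : Fin p × Fin a → Bool) :
    res B (bx x z) = bx (res B x) (res B z) := by
  funext w
  unfold bx res
  by_cases h : w ∈ B
  · simp [h]
  · simp [h]

/-- Adding bits is a bijection. -/
def bxEquiv (x : Fin p × Fin a → Bool) : (Fin p × Fin a → Bool) ≃ (Fin p × Fin a → Bool) where
  toFun := bx x
  invFun := bx x
  left_inv := bx_bx x
  right_inv := bx_bx x

lemma expect_bx (x : Fin p × Fin a → Bool) (f : (Fin p × Fin a → Bool) → ℝ) :
    𝔼 z, f (bx x z) = 𝔼 z, f z :=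
  Fintype.expect_equiv (bxEquiv x) _ _ (fun _ => rfl)

/-- The alive positions of the `i`-th set. -/
def alive (e : Fin p × Fin a → Fin m) (B : Finset (Fin p × Fin a)) (i : Fin p) :
    Finset (Fin m) :=
  (univ.filter fun k : Fin a => (i, k) ∈ B).image fun k => e (i, k)

lemma mask_alive {e : Fin p × Fin a → Fin m} (he : Function.Injective e)
    (B : Finset (Fin p × Fin a)) (i : Fin p) (d : Fin m → ZMod 2) :
    ∃ z, mask (alive e B i) d = emb e (res B z) := by
  classical
  refine ⟨fun w => decide (w.1 = i ∧ d (e w) = 1), ?_⟩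
  funext v
  have hd : ∀ z : ZMod 2, z ≠ 1 → z = 0 := by decide
  by_cases h : ∃ w, e w = v
  · obtain ⟨w, rfl⟩ := h
    rw [emb_apply he]
    unfold mask res
    have h1 : e w ∈ alive e B i ↔ w ∈ B ∧ w.1 = i := by
      unfold alive
      rw [mem_image]
      constructor
      · rintro ⟨k, hk, hkw⟩
        have := he hkw
        subst this
        exact ⟨(mem_filter.1 hk).2, rfl⟩
      · rintro ⟨h2, h3⟩
        refine ⟨w.2, mem_filter.2 ⟨mem_univ _, ?_⟩, ?_⟩
        · rw [← h3]; exact h2
        · rw [← h3]
    by_cases h2 : w ∈ B ∧ w.1 = i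
    · rw [if_pos (h1.2 h2)]
      by_cases h3 : d (e w) = 1
      · simp [h2.1, h2.2, h3]
      · simp [h2.1, h2.2, hd _ h3]
    · rw [if_neg (fun h => h2 (h1.1 h))]
      rw [if_neg]
      simp only [Bool.and_eq_true, decide_eq_true_eq, not_and]
      intro h3 h4
      exact absurd ⟨h3, h4⟩ h2
  · have h1 : v ∉ alive e B i := by
      intro hv
      unfold alive at hv
      obtain ⟨k, -, hk⟩ := mem_image.1 hv
      exact h ⟨_, hk⟩
    unfold mask emb
    rw [if_neg h1, if_neg]
    rintro ⟨w, hw, -⟩
    exact h ⟨w, hw⟩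

theorem inner_le (hp : 0 < p) (hℓ : 0 < ℓ) (hr : r = p * ℓ) {J : Type} [Fintype J]
    (F : J → (Fin r → ZMod 2) → (Fin m → ZMod 2) → ℝ) (hF : ∀ j s x, |F j s x| ≤ 1)
    (off : Fin p → ℕ) (e : Fin p × Fin a → Fin m) (he : Function.Injective e)
    (hwin : ∀ i k, off i ≤ (e (i, k) : ℕ) ∧ (e (i, k) : ℕ) < off i + ℓ)
    (c : J → Fin p) (hc : ∀ j s x d, F j s (x + mask (alive e univ (c j)) d) = F j s x)
    (u : ℕ) (B : Finset (Fin p × Fin a))
    (hB : ∀ i : Fin p, 2 ^ p * u + p ≤ (univ.filter fun k : Fin a => (i, k) ∈ B).card) :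
    𝔼 s : Fin r → ZMod 2, 𝔼 y : Fin m → ZMod 2, 𝔼 x : Fin p × Fin a → Bool,
      |𝔼 z : Fin p × Fin a → Bool, (∏ j, F j s (y + emb e (mix B x z))) *
        sgn (form p s (y + emb e (mix B x z)))| ≤ (1 / 2 : ℝ) ^ u := by
  classical
  set g : (Fin r → ZMod 2) → (Fin m → ZMod 2) → ℝ := fun s X =>
    (∏ j, F j s X) * sgn (form p s X) with hg
  set Mn : (Fin r → ZMod 2) → (Fin m → ZMod 2) → ℝ := fun s X =>
    𝔼 z : Fin p × Fin a → Bool, g s (X + emb e (res B z)) with hMn
  have h1 : ∀ s y x, 𝔼 z : Fin p × Fin a → Bool, (∏ j, F j s (y + emb e (mix B x z))) *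
      sgn (form p s (y + emb e (mix B x z))) = Mn s (y + emb e x) := by
    intro s y x
    show _ = 𝔼 z : Fin p × Fin a → Bool, g s (y + emb e x + emb e (res B z))
    rw [← expect_bx x fun z => g s (y + emb e x + emb e (res B z))]
    refine Finset.expect_congr rfl fun z _ => ?_
    simp only [hg]
    rw [mix_eq, emb_bx he, ← add_assoc]
  have h2 : ∀ s, 𝔼 y : Fin m → ZMod 2, 𝔼 x : Fin p × Fin a → Bool,
      |𝔼 z : Fin p × Fin a → Bool, (∏ j, F j s (y + emb e (mix B x z))) *
        sgn (form p s (y + emb e (mix B x z)))| = 𝔼 X, |Mn s X| := by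
    intro s
    simp only [h1]
    rw [Finset.expect_comm]
    have : ∀ x : Fin p × Fin a → Bool, 𝔼 y, |Mn s (y + emb e x)| = 𝔼 X, |Mn s X| :=
      fun x => expect_translate (fun X => |Mn s X|) (emb e x)
    simp only [this]
    exact Fintype.expect_const _
  simp only [h2]
  have h3 : ∀ s X z, Mn s (X + emb e (res B z)) = Mn s X := by
    intro s X z
    rw [hMn]
    simp only
    rw [← expect_bx z fun z' => g s (X + emb e (res B z'))]
    refine Finset.expect_congr rfl fun z' _ => ?_
    rw [res_bx, emb_bx he, add_assoc]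
  have h3' : ∀ s X i d, Mn s (X + mask (alive e B i) d) = Mn s X := by
    intro s X i d
    obtain ⟨z, hz⟩ := mask_alive he B i d
    rw [hz, h3]
  set σ : (Fin r → ZMod 2) → (Fin m → ZMod 2) → ℝ := fun s X =>
    if 0 ≤ Mn s X then 1 else -1 with hσ
  have hσ1 : ∀ s X, |σ s X| ≤ 1 := by
    intro s X
    simp only [hσ]
    split_ifs <;> simp
  have h4 : ∀ s, 𝔼 X, |Mn s X| = 𝔼 X, σ s X * g s X := by
    intro s
    have h5 : ∀ X, |Mn s X| = 𝔼 z : Fin p × Fin a → Bool,
        σ s (X + emb e (res B z)) * g s (X + emb e (res B z)) := by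
      intro X
      have h6 : ∀ z, σ s (X + emb e (res B z)) = σ s X := by
        intro z
        simp only [hσ, h3]
      simp only [h6]
      rw [← Finset.mul_expect]
      show |Mn s X| = σ s X * Mn s X
      simp only [hσ]
      split_ifs with h7
      · rw [one_mul, abs_of_nonneg h7]
      · rw [neg_one_mul, abs_of_neg (not_le.1 h7)]
    simp only [h5]
    rw [Finset.expect_comm]
    have : ∀ z : Fin p × Fin a → Bool,
        𝔼 X, σ s (X + emb e (res B z)) * g s (X + emb e (res B z)) = 𝔼 X, σ s X * g s X :=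
      fun z => expect_translate (fun X => σ s X * g s X) (emb e (res B z))
    simp only [this]
    exact Fintype.expect_const _
  simp only [h4]
  have hsub : ∀ i, alive e B i ⊆ alive e univ i := by
    intro i
    unfold alive
    refine Finset.image_subset_image fun k _ => mem_filter.2 ⟨mem_univ _, mem_univ _⟩
  have h8 := corr_le (m := m) hp hℓ hr (J := Option J)
    (fun j => match j with
      | none => σ
      | some j => F j)
    (by
      rintro (_ | j) s x
      · exact hσ1 s x
      · exact hF j s x)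
    off (alive e B)
    (by
      intro i v hv
      unfold alive at hv
      obtain ⟨k, -, rfl⟩ := mem_image.1 hv
      exact hwin i k)
    (by
      intro i i' hne
      rw [Finset.disjoint_left]
      intro v hv hv'
      unfold alive at hv hv'
      obtain ⟨k, -, hk⟩ := mem_image.1 hv
      obtain ⟨k', -, hk'⟩ := mem_image.1 hv'
      exact hne (Prod.mk.inj (he (hk.trans hk'.symm))).1)
    u
    (by
      intro i
      refine (hB i).trans (le_of_eq ?_)
      unfold alive
      rw [Finset.card_image_of_injective]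
      intro k k' h
      exact (Prod.mk.inj (he h)).2)
    (fun j => match j with
      | none => ⟨0, hp⟩
      | some j => c j)
    (by
      rintro (_ | j) s x d
      · show σ s (x + mask (alive e B ⟨0, hp⟩) d) = σ s x
        simp only [hσ, h3']
      · show F j s (x + mask (alive e B (c j)) d) = F j s x
        have h9 : mask (alive e B (c j)) d =
            mask (alive e univ (c j)) (mask (alive e B (c j)) d) := by
          funext v
          unfold mask
          by_cases hv : v ∈ alive e B (c j)
          · simp [hv, hsub _ hv]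
          · simp [hv]
        rw [h9, hc])
  refine le_trans (Finset.expect_le_expect fun s _ => ?_) h8
  refine (le_abs_self _).trans (le_of_eq ?_)
  congr 1
  refine Finset.expect_congr rfl fun X _ => ?_
  rw [Fintype.prod_option]
  simp only [hg]
  ring

end Vale.Agent.P336.Cyl
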