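import Vale.Agent.P336.R2.H746.WCore
import Vale.Agent.P336.R2.H13.Clauses

/-!
# P336: one gate with narrow functions
-/

namespace Vale.Agent.P336.Cyl

open Finset Vale.Agent.P336.H746
open Vale.Agent.P336.R2.H836 (E mix)
open scoped BigOperators

variable {p r m ℓ a : ℕ}

open Classical in
/-- The weighted sum of the expansion. -/
noncomputable def wsum (p a f u : ℕ) (q : ℝ) : ℝ :=
  2 * ∑ A : Finset (Fin p × Fin a), q ^ A.card *
    (if ∀ i : Fin p, 2 ^ p * u + p + f ≤ (univ.filter fun k : Fin a => (i, k) ∈ A).card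
      then (1 / 2 : ℝ) ^ f + ((A.powerset.filter fun F => F.card < f).card : ℝ) * (1 / 2) ^ u
      else 1)

theorem gate_wide_le (hp : 0 < p) (hℓ : 0 < ℓ) (hr : r = p * ℓ) {J : Type} [Fintype J]
    (F : J → (Fin r → ZMod 2) → (Fin m → ZMod 2) → ℝ) (hF : ∀ j s x, |F j s x| ≤ 1)
    (off : Fin p → ℕ) (e : Fin p × Fin a → Fin m) (he : Function.Injective e)
    (hwin : ∀ i k, off i ≤ (e (i, k) : ℕ) ∧ (e (i, k) : ℕ) < off i + ℓ)
    (c : J → Fin p) (hc : ∀ j s x d, F j s (x + mask (alive e univ (c j)) d) = F j s x)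
    {B : Type} [Fintype B] (R : ℕ) (β : B → (Fin r → ZMod 2) → (Fin m → ZMod 2) → Prop)
    (D : B → Finset (Fin p × Fin a)) (hD : ∀ b, (D b).card ≤ R)
    (hβ : ∀ b s y z z', (∀ v ∈ D b, z v = z' v) →
      (β b s (y + emb e z) ↔ β b s (y + emb e z')))
    (f u : ℕ) (q : ℝ) (hq : 0 < q) (hRq : (R : ℝ) * q ≤ 1 / 2) :
    (1 + q) ^ (p * a) * 𝔼 s : Fin r → ZMod 2, |𝔼 x, (open Classical in
      if ∀ b, β b s x then (1 : ℝ) else 0) * ((∏ j, F j s x) * sgn (form p s x))| ≤
      wsum p a f u q := by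
  classical
  set g : (Fin r → ZMod 2) → (Fin m → ZMod 2) → ℝ := fun s X =>
    (∏ j, F j s X) * sgn (form p s X) with hg
  have hg1 : ∀ s X, |g s X| ≤ 1 := by
    intro s X
    simp only [hg]
    rw [abs_mul, abs_sgn, mul_one, Finset.abs_prod]
    exact Finset.prod_le_one (fun _ _ => abs_nonneg _) fun j _ => hF j s X
  have hcard : Fintype.card (Fin p × Fin a) = p * a := by simp
  -- the expansion for fixed `s` and `y`
  have h1 : ∀ s y, (1 + q) ^ (p * a) * |𝔼 z : Fin p × Fin a → Bool,
      (if ∀ b, β b s (y + emb e z) then (1 : ℝ) else 0) * g s (y + emb e z)| ≤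
      2 * ∑ A : Finset (Fin p × Fin a), q ^ A.card * min 1 ((1 / 2) ^ f +
        ∑ G ∈ A.powerset.filter (fun G => G.card < f), 𝔼 x : Fin p × Fin a → Bool,
          |𝔼 z : Fin p × Fin a → Bool, g s (y + emb e (mix (A \ G) x z))|) := by
    intro s y
    obtain ⟨I, C, hI, hC⟩ := exists_clauses R (fun b z => β b s (y + emb e z)) D hD
      (fun b z z' h => hβ b s y z z' h)
    have h2 := Vale.Agent.P336.R2.H524.narrow_expansion (f := f) hq hRq I C hI
      (fun z => g s (y + emb e z)) (fun z => hg1 _ _)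
    rw [hcard] at h2
    simp only [E_eq] at h2
    refine le_trans (le_of_eq ?_) h2
    congr 2
    refine Finset.expect_congr rfl fun z _ => ?_
    by_cases hz : ∀ b, β b s (y + emb e z)
    · rw [if_pos hz, (hC z).1 hz]; ring
    · rw [if_neg hz, (hC z).2 hz]; ring
  -- means over `y`
  have h3 : ∀ s, |𝔼 x, (if ∀ b, β b s x then (1 : ℝ) else 0) * g s x| ≤
      𝔼 y : Fin m → ZMod 2, |𝔼 z : Fin p × Fin a → Bool,
        (if ∀ b, β b s (y + emb e z) then (1 : ℝ) else 0) * g s (y + emb e z)| := by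
    intro s
    have h4 : 𝔼 x, (if ∀ b, β b s x then (1 : ℝ) else 0) * g s x =
        𝔼 y : Fin m → ZMod 2, 𝔼 z : Fin p × Fin a → Bool,
          (if ∀ b, β b s (y + emb e z) then (1 : ℝ) else 0) * g s (y + emb e z) := by
      rw [Finset.expect_comm]
      have : ∀ z : Fin p × Fin a → Bool, 𝔼 y : Fin m → ZMod 2,
          (if ∀ b, β b s (y + emb e z) then (1 : ℝ) else 0) * g s (y + emb e z) =
          𝔼 x, (if ∀ b, β b s x then (1 : ℝ) else 0) * g s x :=
        fun z => expect_translate
          (fun x => (if ∀ b, β b s x then (1 : ℝ) else 0) * g s x) (emb e z)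
      simp only [this]
      exact (Fintype.expect_const _).symm
    rw [h4]
    exact Finset.abs_expect_le _ _
  have hpos : (0 : ℝ) ≤ (1 + q) ^ (p * a) := by positivity
  calc (1 + q) ^ (p * a) * 𝔼 s : Fin r → ZMod 2,
        |𝔼 x, (if ∀ b, β b s x then (1 : ℝ) else 0) * g s x|
      ≤ (1 + q) ^ (p * a) * 𝔼 s : Fin r → ZMod 2, 𝔼 y : Fin m → ZMod 2,
        |𝔼 z : Fin p × Fin a → Bool,
          (if ∀ b, β b s (y + emb e z) then (1 : ℝ) else 0) * g s (y + emb e z)| :=
        mul_le_mul_of_nonneg_left (Finset.expect_le_expect fun s _ => h3 s) hpos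
    _ = 𝔼 s : Fin r → ZMod 2, 𝔼 y : Fin m → ZMod 2, (1 + q) ^ (p * a) *
        |𝔼 z : Fin p × Fin a → Bool,
          (if ∀ b, β b s (y + emb e z) then (1 : ℝ) else 0) * g s (y + emb e z)| := by
        simp only [Finset.mul_expect]
    _ ≤ 𝔼 s : Fin r → ZMod 2, 𝔼 y : Fin m → ZMod 2,
        2 * ∑ A : Finset (Fin p × Fin a), q ^ A.card * min 1 ((1 / 2) ^ f +
        ∑ G ∈ A.powerset.filter (fun G => G.card < f), 𝔼 x : Fin p × Fin a → Bool,
          |𝔼 z : Fin p × Fin a → Bool, g s (y + emb e (mix (A \ G) x z))|) :=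
        Finset.expect_le_expect fun s _ => Finset.expect_le_expect fun y _ => h1 s y
    _ = 2 * ∑ A : Finset (Fin p × Fin a), q ^ A.card *
        𝔼 s : Fin r → ZMod 2, 𝔼 y : Fin m → ZMod 2, min 1 ((1 / 2) ^ f +
        ∑ G ∈ A.powerset.filter (fun G => G.card < f), 𝔼 x : Fin p × Fin a → Bool,
          |𝔼 z : Fin p × Fin a → Bool, g s (y + emb e (mix (A \ G) x z))|) := by
        simp only [← Finset.mul_expect, Finset.expect_sum_comm]
    _ ≤ wsum p a f u q := by
        unfold wsum
        refine mul_le_mul_of_nonneg_left (Finset.sum_le_sum fun A _ =>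
          mul_le_mul_of_nonneg_left ?_ (by positivity)) (by norm_num)
        split_ifs with hA
        · have h5 : 𝔼 s : Fin r → ZMod 2, 𝔼 y : Fin m → ZMod 2, min 1 ((1 / 2 : ℝ) ^ f +
              ∑ G ∈ A.powerset.filter (fun G => G.card < f), 𝔼 x : Fin p × Fin a → Bool,
              |𝔼 z : Fin p × Fin a → Bool, g s (y + emb e (mix (A \ G) x z))|) ≤
              𝔼 s : Fin r → ZMod 2, 𝔼 y : Fin m → ZMod 2, ((1 / 2 : ℝ) ^ f +
              ∑ G ∈ A.powerset.filter (fun G => G.card < f), 𝔼 x : Fin p × Fin a → Bool,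
              |𝔼 z : Fin p × Fin a → Bool, g s (y + emb e (mix (A \ G) x z))|) :=
            Finset.expect_le_expect fun s _ => Finset.expect_le_expect fun y _ => min_le_right _ _
          refine h5.trans ?_
          simp only [Finset.expect_add_distrib, Finset.expect_sum_comm, Fintype.expect_const]
          refine add_le_add le_rfl ?_
          rw [← nsmul_eq_mul, ← Finset.sum_const]
          refine Finset.sum_le_sum fun G hG => ?_
          have hGf := (mem_filter.1 hG).2
          refine inner_le hp hℓ hr F hF off e he hwin c hc u (A \ G) fun i => ?_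
          have h6 := hA i
          have h7 : (univ.filter fun k : Fin a => (i, k) ∈ A) ⊆
              (univ.filter fun k : Fin a => (i, k) ∈ A \ G) ∪
                (G.filter fun w => w.1 = i).image Prod.snd := by
            intro k hk
            by_cases hkG : (i, k) ∈ G
            · exact mem_union_right _ (mem_image.2 ⟨(i, k), mem_filter.2 ⟨hkG, rfl⟩, rfl⟩)
            · exact mem_union_left _ (mem_filter.2 ⟨mem_univ _,
                mem_sdiff.2 ⟨(mem_filter.1 hk).2, hkG⟩⟩)
          have h8 := (Finset.card_le_card h7).trans (Finset.card_union_le _ _)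
          have h9 : ((G.filter fun w => w.1 = i).image Prod.snd).card ≤ G.card :=
            Finset.card_image_le.trans (Finset.card_filter_le _ _)
          omega
        · have h5 : 𝔼 s : Fin r → ZMod 2, 𝔼 y : Fin m → ZMod 2, min 1 ((1 / 2 : ℝ) ^ f +
              ∑ G ∈ A.powerset.filter (fun G => G.card < f), 𝔼 x : Fin p × Fin a → Bool,
              |𝔼 z : Fin p × Fin a → Bool, g s (y + emb e (mix (A \ G) x z))|) ≤
              𝔼 s : Fin r → ZMod 2, 𝔼 y : Fin m → ZMod 2, (1 : ℝ) :=
            Finset.expect_le_expect fun s _ => Finset.expect_le_expect fun y _ => min_le_left _ _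
          refine h5.trans (le_of_eq ?_)
          simp only [Fintype.expect_const]

end Vale.Agent.P336.Cyl
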