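import Vale.Agent.P336.R2.H746.CylSpec

/-!
# P336: gates with functions of few variables and functions which miss one of `p` sets
-/

/-- The AND gate `j` is a wide cylinder intersection of `p` parties: there are `p` pairwise
disjoint sets `A 0, …, A (p - 1)` of at least `s` variables such that every function under `j`
reads no variable of at least one of them, or reads at most `k` variables of their union. -/
def Vale.Agent.P336.AnyCircuit.WideCylinder {n : ℕ} (C : Vale.Agent.P336.AnyCircuit n)
    (p s k : ℕ) (j : Fin C.middle) : Prop :=
  ∃ A : Fin p → Finset (Fin n), (∀ i, s ≤ (A i).card) ∧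
    (∀ i i', i ≠ i' → Disjoint (A i) (A i')) ∧
    ∀ b, (∃ i, Disjoint (A i) (C.reads j b)) ∨
      ((C.reads j b).filter fun v => ∃ i, v ∈ A i).card ≤ k
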