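import Vale.Agent.P336.R2.H746.WGate
import Vale.Agent.P336.R2.H746.CoverR
import Vale.Agent.P336.R2.H746.WSpec
import Vale.Agent.P336.R2.H746.CylMain
import Vale.Agent.P336.R2.H597.Weights

/-!
# P336: wide cylinder intersections, for the slices of the language
-/

namespace Vale.Agent.P336.Cyl

open Finset Vale.Agent.P336.H746
open scoped BigOperators

theorem word_congr {N q p ρ r : ℕ} (s : Fin r → ZMod 2) (x x' : Fin (N - (2 * q + r)) → ZMod 2)
    (t : Fin N) (h : ∀ v, t = dpos v → x v = x' v) :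
    word N q p ρ r s x t = word N q p ρ r s x' t := by
  unfold word
  split_ifs with h1 h2 h3 h4
  · rfl
  · rfl
  · rfl
  · rw [h ⟨(t : ℕ) - (2 * q + r), h4⟩ (Fin.ext (by
      show (t : ℕ) = 2 * q + r + ((t : ℕ) - (2 * q + r))
      omega))]
  · rfl

open Classical in
/-- The correlation of one gate with the form. -/
theorem gate_le {p R t a : ℕ}
    (hw : ∃ (f u : ℕ) (q : ℝ), 0 < q ∧ (R : ℝ) * q ≤ 1 / 2 ∧
      wsum p a f u q ≤ (1 + q) ^ (p * a) * (1 / 2 : ℝ) ^ (t + 3))
    {N q ρ ℓ r : ℕ} (hp : 0 < p) (hℓ : 0 < ℓ) (hr : r = p * ℓ) (C : AnyCircuit N)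
    (j : Fin C.middle) (A : Fin p → Finset (Fin N))
    (hAd : ∀ i i', i ≠ i' → Disjoint (A i) (A i'))
    (hAb : ∀ b, (∃ i, Disjoint (A i) (C.reads j b)) ∨
      ((C.reads j b).filter fun v => ∃ i, v ∈ A i).card ≤ R)
    (o : Fin p → ℕ) (ho : ∀ i, a ≤ ((univ.filter fun v : Fin (N - (2 * q + r)) =>
      dpos v ∈ A i).filter
      fun v : Fin (N - (2 * q + r)) => o i ≤ (v : ℕ) ∧ (v : ℕ) < o i + ℓ).card) :
    𝔼 s : Fin r → ZMod 2, |𝔼 x : Fin (N - (2 * q + r)) → ZMod 2,
      (if ∀ b, C.fn j b (word N q p ρ r s x) = true then (1 : ℝ) else 0) * sgn (form p s x)| ≤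
      (1 / 2 : ℝ) ^ (t + 3) := by
  obtain ⟨f, u, w, hw0, hRw, hws⟩ := hw
  set T : Fin p → Finset (Fin (N - (2 * q + r))) := fun i =>
    (univ.filter fun v : Fin (N - (2 * q + r)) => dpos v ∈ A i).filter
      fun v : Fin (N - (2 * q + r)) => o i ≤ (v : ℕ) ∧ (v : ℕ) < o i + ℓ with hT
  have hTA : ∀ i v, v ∈ T i → dpos v ∈ A i := fun i v hv =>
    (mem_filter.1 (mem_filter.1 hv).1).2
  have hTd : ∀ i i' v, v ∈ T i → v ∈ T i' → i = i' := by
    intro i i' v hv hv'
    by_contra hne
    exact (Finset.disjoint_left.1 (hAd i i' hne) (hTA i v hv)) (hTA i' v hv')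
  set e : Fin p × Fin a → Fin (N - (2 * q + r)) := fun w =>
    (T w.1).orderEmbOfCardLe (ho w.1) w.2 with he'
  have heT : ∀ i k, e (i, k) ∈ T i := fun i k =>
    (T i).orderEmbOfCardLe_mem (ho i) k
  have he : Function.Injective e := by
    rintro ⟨i, k⟩ ⟨i', k'⟩ h
    have h1 : i = i' := hTd i i' (e (i, k)) (heT i k) (by rw [h]; exact heT i' k')
    subst h1
    have h2 : k = k' := ((T i).orderEmbOfCardLe (ho i)).injective h
    rw [h2]
  have hwin : ∀ i k, o i ≤ (e (i, k) : ℕ) ∧ (e (i, k) : ℕ) < o i + ℓ := fun i k =>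
    (mem_filter.1 (heT i k)).2
  let J : Type := {b : Fin (C.fanIn j) // ∃ i, Disjoint (A i) (C.reads j b)}
  let B : Type := {b : Fin (C.fanIn j) // ¬ ∃ i, Disjoint (A i) (C.reads j b)}
  have hc0 : ∀ b : J, ∃ i, Disjoint (A i) (C.reads j b.1) := fun b => b.2
  choose c hc using hc0
  have halive : ∀ i v, v ∈ alive e univ i → dpos v ∈ A i := by
    intro i v hv
    unfold alive at hv
    obtain ⟨k, -, rfl⟩ := mem_image.1 hv
    exact hTA i _ (heT i k)
  have h1 := gate_wide_le (m := N - (2 * q + r)) (a := a) hp hℓ hr (J := J)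
    (fun b s x => if C.fn j b.1 (word N q p ρ r s x) = true then (1 : ℝ) else 0)
    (by
      intro b s x
      split_ifs <;> simp)
    o e he hwin c
    (by
      intro b s x d
      have h1 : C.fn j b.1 (word N q p ρ r s (x + mask (alive e univ (c b)) d)) =
          C.fn j b.1 (word N q p ρ r s x) := by
        refine C.congr j b.1 _ _ fun t ht' => word_mask s x d _ t fun v hv htv => ?_
        have h2 := halive _ _ hv
        rw [← htv] at h2
        exact (Finset.disjoint_left.1 (hc b) h2) ht'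
      rw [h1])
    (B := B) R (fun b s x => C.fn j b.1 (word N q p ρ r s x) = true)
    (fun b => univ.filter fun w => dpos (e w) ∈ C.reads j b.1)
    (by
      intro b
      rcases hAb b.1 with h | h
      · exact absurd h b.2
      · refine le_trans (Finset.card_le_card_of_injOn (fun w => dpos (e w)) ?_ ?_) h
        · intro w hw
          have hw' := (mem_filter.1 (Finset.mem_coe.1 hw)).2
          refine Finset.mem_coe.2 (mem_filter.2 ⟨hw', w.1, ?_⟩)
          exact hTA w.1 _ (heT w.1 w.2)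
        · intro w _ w' _ h
          exact he (dpos_injective h))
    (by
      intro b s y z z' hz
      have h1 : C.fn j b.1 (word N q p ρ r s (y + emb e z)) =
          C.fn j b.1 (word N q p ρ r s (y + emb e z')) := by
        refine C.congr j b.1 _ _ fun t ht' => word_congr s _ _ t fun v htv => ?_
        rw [Pi.add_apply, Pi.add_apply]
        congr 1
        by_cases hv : ∃ w, e w = v
        · obtain ⟨w, rfl⟩ := hv
          rw [emb_apply he, emb_apply he, hz w (mem_filter.2 ⟨mem_univ _, htv ▸ ht'⟩)]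
        · unfold emb
          rw [if_neg, if_neg]
          · rintro ⟨w, hw, -⟩
            exact hv ⟨w, hw⟩
          · rintro ⟨w, hw, -⟩
            exact hv ⟨w, hw⟩
      rw [h1])
    f u w hw0 hRw
  have hpos : (0 : ℝ) < (1 + w) ^ (p * a) := by positivity
  have h2 := le_of_mul_le_mul_left (h1.trans hws) hpos
  refine le_trans (le_of_eq ?_) h2
  refine Finset.expect_congr rfl fun s _ => ?_
  congr 1
  refine Finset.expect_congr rfl fun x _ => ?_
  rw [← mul_assoc]
  congr 1
  by_cases hall : ∀ b, C.fn j b (word N q p ρ r s x) = true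
  · rw [if_pos hall, if_pos (fun b : B => hall b.1), one_mul]
    refine (Finset.prod_eq_one fun b _ => ?_).symm
    rw [if_pos (hall b.1)]
  · rw [if_neg hall]
    obtain ⟨b, hb⟩ := not_forall.1 hall
    by_cases hbJ : ∃ i, Disjoint (A i) (C.reads j b)
    · have : ∏ b : J, (if C.fn j b.1 (word N q p ρ r s x) = true then (1 : ℝ) else 0) = 0 :=
        Finset.prod_eq_zero (mem_univ (⟨b, hbJ⟩ : J)) (if_neg hb)
      rw [this, mul_zero]
    · rw [if_neg (fun h : ∀ b : B, C.fn j b.1 (word N q p ρ r s x) = true => hb (h ⟨b, hbJ⟩)),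
        zero_mul]

open Classical in
/-- **Wide cylinder gates**, for circuits which are correct on the words of the distribution except
for the bad ones. -/
theorem wmain :
    ∃ K : ℕ, ∀ N p S R t : ℕ, 1 ≤ N → 2 ≤ p → 1 ≤ R → 1 ≤ t →
      K * R * p ^ 2 * 2 ^ p * N * t ≤ S ^ 2 → p * S ≤ N →
      ∃ ρ r : ℕ, r = p * (ρ * root N) ∧ 0 < r ∧ 2 * root N + r + r ≤ N ∧
        (∀ (s : Fin r → ZMod 2) (x : Fin (N - (2 * root N + r)) → ZMod 2),
          slice lang N (word N (root N) p ρ r s x) = true ↔ form p s x = 1) ∧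
        ∀ C : AnyCircuit N, (∀ j, C.WideCylinder p S R j) → ∀ (b : ZMod 2)
          (Bad : (Fin r → ZMod 2) → (Fin (N - (2 * root N + r)) → ZMod 2) → Prop),
          (∀ s x, form p s x = b → C.Accepts (word N (root N) p ρ r s x)) →
          (∀ s x, C.Accepts (word N (root N) p ρ r s x) → form p s x = b ∨ Bad s x) →
          (C.middle : ℝ) * 𝔼 s : Fin r → ZMod 2, 𝔼 x : Fin (N - (2 * root N + r)) → ZMod 2,
            (if Bad s x then (1 : ℝ) else 0) ≤ 1 / 8 →
          2 ^ t ≤ C.middle := by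
  obtain ⟨K, hK⟩ := Vale.Agent.P336.R2.H597.numerics
  obtain ⟨K', hK'⟩ := Vale.Agent.P336.R2.H597.weights
  refine ⟨K * (K' + 1), fun N p S R t hN hp hR ht hKt hpS => ?_⟩
  set t' : ℕ := (K' + 1) * R * p * t with ht'
  have hp0 : 0 < p := by omega
  have htt' : t ≤ t' := by
    have : 1 ≤ (K' + 1) * R * p := Nat.mul_pos (Nat.mul_pos (Nat.succ_pos _) (by omega)) hp0
    calc t = 1 * t := (one_mul t).symm
      _ ≤ (K' + 1) * R * p * t := Nat.mul_le_mul_right t this
  obtain ⟨ρ, ℓ, r, a, hpq, hρq, hℓ, hr, hℓ0, hrN, hta, haℓ, hSa⟩ :=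
    hK N p S t' hp (ht.trans htt') hN
      (by
        calc K * p * 2 ^ p * N * t' = K * (K' + 1) * R * p ^ 2 * 2 ^ p * N * t := by
              rw [ht']; ring
          _ ≤ S ^ 2 := hKt) hpS (root N) (root_mul_le N) (lt_root_succ N)
  have hr0 : 0 < r := by rw [hr]; exact Nat.mul_pos hp0 hℓ0
  have hmem := fun s x => mem_lang_word (N := N) (q := root N) (p := p) (ρ := ρ) (r := r) rfl
    (by rw [hr, hℓ]) hpq hρq hr0 (by omega) s x
  refine ⟨ρ, r, by rw [hr, hℓ], hr0, hrN, fun s x => ?_, fun C hC b Bad h1 h2 hbad => ?_⟩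
  · rw [← hmem s x]
    unfold slice
    rw [decide_eq_true_iff]
  · have h3 : 2 ^ p * (t + 3) + p ≤ 2 ^ p * (t' + 3) + p :=
      Nat.add_le_add_right (Nat.mul_le_mul_left _ (by omega)) _
    refine cover_robust (m := N - (2 * root N + r))
      (form_balanced hp0 hℓ0 hr (by omega) t (h3.trans (hta.trans haℓ))) t
      (fun j s x => ∀ i, C.fn j i (word N (root N) p ρ r s x) = true) b Bad h1 h2 hbad
      fun j => ?_
    obtain ⟨A, hAS, hAd, hAb⟩ := hC j
    have hwin : ∀ i, ∃ o, a ≤ ((univ.filter fun v : Fin (N - (2 * root N + r)) =>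
        dpos v ∈ A i).filter
        fun v : Fin (N - (2 * root N + r)) => o ≤ (v : ℕ) ∧ (v : ℕ) < o + ℓ).card := by
      intro i
      refine exists_window (N := N) hℓ0 _ (by omega) (hSa.trans ?_)
      exact (Nat.sub_le_sub_right (hAS i) _).trans (card_data_ge (A i))
    choose o ho using hwin
    have ha : K' * R * p * 2 ^ p * t ≤ a := by
      have h4 : 2 ^ p * t' ≤ a :=
        (Nat.mul_le_mul_left _ (Nat.le_add_right t' 3)).trans ((Nat.le_add_right _ _).trans hta)
      refine le_trans ?_ h4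
      rw [ht']
      calc K' * R * p * 2 ^ p * t ≤ (K' + 1) * R * p * 2 ^ p * t := by gcongr; omega
        _ = 2 ^ p * ((K' + 1) * R * p * t) := by ring
    obtain ⟨f, u, w, hw0, hRw, hws⟩ := hK' p R t (K' * R * p * 2 ^ p * t) hp hR ht rfl
    have h5 := gate_le (a := K' * R * p * 2 ^ p * t) (t := t) (R := R) (p := p)
      ⟨f, u, w, hw0, hRw, by unfold wsum; convert hws⟩ (q := root N) (ρ := ρ) hp0 hℓ0 hr C j A hAd
      (fun b => by convert hAb b) o (fun i => by convert ha.trans (ho i))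
    convert h5

end Vale.Agent.P336.Cyl
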